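import Crest.Agent.X277.AN.HormS
import Crest.Agent.X277.AN.IntU
import Crest.Agent.X277.AN.Push0

/-!
# Row 262, package Vol78 (helper78), file `ConA`: connectedness of the non-klt locus, analytic form

`L` semipositive and big, `σ` a section of `K^r L`, `g l` sections of `L^k` whose weight
`c log ∑ |g l|²` (`c k r < 1`) is not integrable at `x ∈ B` and at `x' ∈ B'`, and is integrable off
the disjoint closed sets `B`, `B'`.  Then a section of `K^r L` equals `σ` at `x` and `0` at `x'`.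
-/

set_option autoImplicit false
set_option linter.unusedSectionVars false

open Set Filter Topology Complex MeasureTheory
open scoped ContDiff Matrix ComplexConjugate ComplexOrder ENNReal

namespace Crest.Agent.X262.Vol78

open Crest.Agent.R275.Geo Crest.Agent.R275.Core144
open Crest.Agent.R275.Dg199 (SmN smN_const sm_iff exists_bump_compact)
open Crest.Agent.R273.Defs_333 Crest.Agent.R273.HM_333 Crest.Agent.R273.Kah_333
open Crest.Agent.R273.Vm_333
open Crest.Agent.R273.FS_333 (lb fs fsKah)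
open Crest.Agent.R273.GreenM_5 (ci mem_ci)
open Crest.Agent.R273.SerA_945 (Fn SmS)
open Crest.Agent.R273.SteinC_794 (nz mem_nz isOpen_nz)
open Crest.Agent.X277.AN Crest.Agent.X277.AN.Push

noncomputable section

variable {n : ℕ} {M : Type} [TopologicalSpace M] {A : Atl n M}

theorem gq_of_const {f : M → ℝ} {c : ℝ} {i : A.ι} {x : M} (hx : x ∈ (A.e i).source)
    (h : ∀ᶠ y in 𝓝 x, f y = c) (ξ : Fin n → ℂ) : gq A f i x ξ = 0 := by
  rw [gq_congr (f := fun _ => c) hx h, gq_eq]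
  unfold gf
  rw [gr_const, pr_zero]
  simp

theorem exists_sm_le [CompactSpace M] {f : M → ℝ} (hf : A.Sm f) : ∃ B, 0 < B ∧ ∀ x, f x ≤ B := by
  obtain ⟨B, hB⟩ := (isCompact_range (cont_of_sm hf)).bddAbove
  exact ⟨|B| + 1, by positivity, fun x => by
    linarith [hB (mem_range_self x), le_abs_self B]⟩

variable [T2Space M] [CompactSpace M] [ConnectedSpace M] [MeasurableSpace M] [BorelSpace M]
  [Finite A.ι]

/-- Hoermander with a cut-off function which separates two closed sets -/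
theorem hor_sep (PA : Part A) (Pr : ProjD A) (h0 : HM (KB A)⁻¹) {N : LB A} (h : HM N)
    {U : Set M} (hU : ZO A U) {Φ : M → ℝ} (hΦ : SmU A U Φ) {Bd ε : ℝ} (hB : ∀ x ∈ U, Φ x ≤ Bd)
    (hε : 0 < ε) (hpos : ∀ i, ∀ x ∈ (A.e i).source, x ∈ U → ∀ ξ,
      ε * qf ((fsKah Pr).g i x) ξ ≤ qf ((cur h - -cur h0 + hsf A Φ) i x) ξ)
    {σ : Fn A} (hσ : IsHS N univ σ) {χ : M → ℝ} (hχ : A.Sm χ) (hχ0 : ∀ x, 0 ≤ χ x)
    (hχ1 : ∀ x, χ x ≤ 1) {Kc : Set M} (hK : IsClosed Kc)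
    (hc : ∀ x ∉ Kc, ∃ c, ∀ᶠ y in 𝓝 x, χ y = c)
    (hfin : ∫⁻ x in Kc, ENNReal.ofReal (nq h σ x * Real.exp (-Φ x)) ∂(vm h0) < ⊤) :
    ∃ F, IsHS N univ F ∧
      ∫⁻ x, ENNReal.ofReal (nq h (fsm χ σ - F) x * Real.exp (-Φ x)) ∂(vm h0) ≠ ⊤ := by
  classical
  have hT : Tame A (vm h0) := tame_vm' h0
  obtain ⟨Cg, hCg, hg⟩ := exists_gq_bound (fsKah Pr) hχ
  have sσ := R273.SerA_945.IsHS.smS hσ
  obtain ⟨Bσ, hBσ0, hBσ⟩ := exists_sm_le (sm_nq h sσ)
  have sy := smS_fsm hχ sσ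
  set ρ : M → ℝ := Kc.indicator fun x => Cg / ε * nq h σ x with hρ
  obtain ⟨F, hF, hI⟩ := h2 n M A ⟨PA⟩ ⟨Pr⟩ h0 N h U hU Φ ρ (fsm χ σ) (max Bd Bσ) hΦ
    (fun x hx => (hB x hx).trans (le_max_left _ _))
    ⟨fun i x hx _ => R275.Dg199.SmAt.smN (sy.sm i) hx, fun i j x hx _ => sy.tr i j x hx⟩
    (fun x _ => by
      rw [nq_fsm]
      have h1 : χ x ^ 2 ≤ 1 := by nlinarith [hχ0 x, hχ1 x]
      nlinarith [hBσ x, nq_nonneg h σ x, le_max_right Bd Bσ])
    (((measurable_const.mul (cont_of_sm (sm_nq h sσ)).measurable).indicator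
      hK.measurableSet).aemeasurable)
    (fun i x hx hxU ξ =>
      (mul_nonneg hε.le (nn_kah (fsKah Pr) i x hx ξ)).trans (hpos i x hx hxU ξ))
    (fun i x hx hxU ξ => by
      have h1 := dbq_fsm_hol (φ := id) h hσ isOpen_univ (mem_univ x) (sx_of_sm hχ hx) hx
        (hasDerivAt_id _) ξ
      simp only [id] at h1
      rw [h1]
      have h3 := nn_kah (fsKah Pr) i x hx ξ
      have h4 := hpos i x hx hxU ξ
      by_cases hxK : x ∈ Kc
      · rw [hρ, indicator_of_mem hxK]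
        have h5 := hg i x hx ξ
        have h6 := nq_nonneg h σ x
        calc 1 ^ 2 * nq h σ x * gq A χ i x ξ ≤ nq h σ x * (Cg * qf ((fsKah Pr).g i x) ξ) := by
              rw [one_pow, one_mul]
              exact mul_le_mul_of_nonneg_left h5 h6
          _ = Cg / ε * nq h σ x * (ε * qf ((fsKah Pr).g i x) ξ) := by field_simp
          _ ≤ _ := mul_le_mul_of_nonneg_left h4 (by positivity)
      · obtain ⟨c, hc⟩ := hc x hxK
        rw [gq_of_const hx hc, hρ, indicator_of_notMem hxK]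
        simp)
  rw [hT.zo_restrict PA Pr hU] at hI
  refine ⟨F, hF, ne_top_of_le_ne_top (ENNReal.mul_ne_top (by simp) ?_) hI⟩
  refine ne_top_of_le_ne_top (b := ENNReal.ofReal (Cg / ε) *
    ∫⁻ x in Kc, ENNReal.ofReal (nq h σ x * Real.exp (-Φ x)) ∂(vm h0))
    (ENNReal.mul_ne_top ENNReal.ofReal_ne_top hfin.ne) ?_
  rw [← lintegral_const_mul' _ _ ENNReal.ofReal_ne_top, ← lintegral_indicator hK.measurableSet]
  refine lintegral_mono fun x => ?_
  by_cases hxK : x ∈ Kc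
  · simp only [hρ, indicator_of_mem hxK]
    rw [← ENNReal.ofReal_mul (by positivity), mul_assoc]
  · simp [hρ, indicator_of_notMem hxK]

/-- connectedness, analytic form -/
theorem connA (PA : Part A) (Pr : ProjD A) (hn : 0 < n) (hK : HM (KB A)) {L : LB A} (hL : HM L)
    (hLp : Nn (cur hL)) {r k a : ℕ} (hr : 0 < r) {σ : Fn A} (hσ : IsHS (KB A ^ r * L) univ σ)
    {ι : Type*} (t : Finset ι) {g : ι → Fn A} (hg : ∀ l ∈ t, IsHS (L ^ k) univ (g l))
    (hg0 : ∃ l ∈ t, (nz (g l)).Nonempty) {e : Fn A} (he : IsHS (L ^ a * (lb Pr)⁻¹) univ e)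
    (he0 : (nz e).Nonempty) {c p : ℝ} (hc : 0 ≤ c) (hck : c * k * r < 1) (hp : 1 < p)
    {B B' : Set M} (hB : IsClosed B) (hB' : IsClosed B') (hd : Disjoint B B')
    (hint : ∀ q, q ∉ B → q ∉ B' → ∃ V ∈ 𝓝 q, Fi ((vm (inv hK)).restrict V)
      fun y => p * (c * Real.log (∑ l ∈ t, nq (pow hL k) (g l) y)))
    {x x' : M} (hx : x ∈ B) (hx' : x' ∈ B') (hσ0 : x ∈ nz σ) {T : ℕ} (hT : (n : ℝ) ≤ c * T)
    (hv : ∀ z, z = x ∨ z = x' → ∃ D : ℝ, 0 < D ∧ ∀ᶠ y in 𝓝 z, ∑ l ∈ t, nq (pow hL k) (g l) y ≤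
      D * ‖A.e (ci A z) y - A.e (ci A z) z‖ ^ (2 * T)) :
    ∃ F, IsHS (KB A ^ r * L) univ F ∧ F (ci A x) x = σ (ci A x) x ∧ F (ci A x') x' = 0 := by
  classical
  have hTm : Tame A (vm (inv hK)) := tame_vm' _
  have := hTm.fin
  set h := mul (pow hK r) hL with hh
  set hE := mul (pow hL a) (inv (fs Pr)) with hhE
  set S : M → ℝ := fun y => ∑ l ∈ t, nq (pow hL k) (g l) y with hS
  obtain ⟨l0, hl0, hg0⟩ := hg0
  have ex : ∀ {Q : LB A} {s : Fn A}, IsHS Q univ s → (nz s).Nonempty →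
      ∃ i, ∃ y ∈ (A.e i).source, s i y ≠ 0 := fun hs ⟨y, hy⟩ =>
    ⟨_, y, mem_ci y, (mem_nz hs (mem_ci y)).1 hy⟩
  have lS : LQ (cur (pow hL k)) S := lq_sum_nq _ t hg
  -- the Zariski open set
  have hd0 : IsHS _ univ (σ * g l0 * e) := (hσ.mul (hg l0 hl0)).mul he
  have hae : ∀ᵐ y ∂(vm (inv hK)), y ∈ nz (σ * g l0 * e) := by
    filter_upwards [hTm.ae_nq_pos Pr h hσ (ex hσ ⟨x, hσ0⟩),
      hTm.ae_nq_pos Pr (pow hL k) (hg l0 hl0) (ex (hg l0 hl0) hg0),
      hTm.ae_nq_pos Pr hE he (ex he he0)] with y h1 h2 h3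
    rw [nz_mul, nz_mul]
    exact ⟨⟨(mem_nz_iff_nq h σ y).2 h1, (mem_nz_iff_nq _ _ y).2 h2⟩, (mem_nz_iff_nq hE e y).2 h3⟩
  have hU : ZO A (nz (σ * g l0 * e)) := by
    have : NeZero (vm (inv hK)) := ⟨hTm.ne_zero⟩
    exact ⟨_, _, hd0, ex hd0 hae.exists, rfl⟩
  set U := nz (σ * g l0 * e) with hUd
  have u1 : ∀ y ∈ U, y ∈ nz σ ∧ 0 < S y ∧ y ∈ nz e := fun y hy => by
    rw [hUd, nz_mul, nz_mul] at hy
    exact ⟨hy.1.1, lt_of_lt_of_le ((mem_nz_iff_nq (pow hL k) _ y).1 hy.1.2)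
      (Finset.single_le_sum (f := fun l => nq (pow hL k) (g l) y)
        (fun l _ => nq_nonneg _ _ _) hl0), hy.2⟩
  -- the cut-off function
  obtain ⟨χ, hχ, hχB, hχs, -, hχ0, hχ1⟩ := exists_bump_compact A hB.isCompact hB'.isOpen_compl
    hd.subset_compl_right
  set Kc : Set M := tsupport χ ∩ {q | ∀ᶠ y in 𝓝 q, χ y = 1}ᶜ with hKc
  have cK : IsClosed Kc := (isClosed_tsupport χ).inter isOpen_setOfPred_eventually_nhds.isClosed_compl
  have f1 : Fi ((vm (inv hK)).restrict Kc) fun y => p * (c * Real.log (S y)) :=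
    setLIntegral_lt_top_of_loc cK.isCompact fun q hq =>
      hint q (fun h1 => hq.2 (hχB q h1)) (hχs hq.1)
  obtain ⟨a0, ha0, f2⟩ := hTm.fi_log_nq Pr hE he (ex he he0)
  have m1 : Measurable fun y => c * Real.log (S y) := (meas_log_sm lS.sm).const_mul c
  have m2 := meas_log_nq hE he
  obtain ⟨c0, p', hc0, hp', f3⟩ := Fi.small_lp hp ha0 f1 (f2.restrict Kc) m1.aemeasurable
    m2.aemeasurable
  have hr' : (0 : ℝ) < r := by exact_mod_cast hr
  have hδ : 0 < 1 / (r : ℝ) - c * k := by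
    rw [sub_pos, lt_div_iff₀ hr']
    exact hck
  set ε : ℝ := min c0 ((1 / (r : ℝ) - c * k) / (a + 1)) with hεd
  have hε : 0 < ε := lt_min hc0 (by positivity)
  have hεa : ε * a ≤ 1 / (r : ℝ) - c * k := by
    have h1 : ε ≤ (1 / (r : ℝ) - c * k) / (a + 1) := min_le_right _ _
    rw [le_div_iff₀ (by positivity)] at h1
    nlinarith
  have f4 : Fi ((vm (inv hK)).restrict Kc)
      fun y => 1 * (c * Real.log (S y) + ε * Real.log (nq hE e y)) :=
    Fi.smul_le (f3 ε hε.le (min_le_left _ _)) (m1.add (m2.const_mul ε)).aemeasurable zero_le_one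
      hp'.le
  have hb : 0 ≤ 1 - 1 / (r : ℝ) := by
    rw [sub_nonneg, div_le_one hr']
    exact_mod_cast hr
  set Φ : M → ℝ := fun y => (1 - 1 / (r : ℝ)) * Real.log (nq h σ y) +
    (c * Real.log (S y) + ε * Real.log (nq hE e y)) with hΦ
  obtain ⟨B1, hB1, b1⟩ := exists_sm_le (sm_nq h (R273.SerA_945.IsHS.smS hσ))
  obtain ⟨B2, hB2, b2⟩ := exists_sm_le lS.sm
  obtain ⟨B3, hB3, b3⟩ := exists_sm_le (sm_nq hE (R273.SerA_945.IsHS.smS he))
  have l1 : ∀ y ∈ U, Real.log (nq h σ y) ≤ Real.log B1 := fun y hy =>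
    Real.log_le_log ((mem_nz_iff_nq h σ y).1 (u1 y hy).1) (b1 y)
  have l3 : ∀ y ∈ U, Real.log (nq hE e y) ≤ Real.log B3 := fun y hy =>
    Real.log_le_log ((mem_nz_iff_nq hE e y).1 (u1 y hy).2.2) (b3 y)
  have sx : ∀ i, ∀ y ∈ (A.e i).source, y ∈ U → SX A (fun y => Real.log (nq h σ y)) i y ∧
      SX A (fun y => Real.log (S y)) i y ∧ SX A (fun y => Real.log (nq hE e y)) i y :=
    fun i y hy hyU => ⟨(sx_nq h hσ isOpen_univ hy trivial).log hy
      ((mem_nz_iff_nq h σ y).1 (u1 y hyU).1).ne', (lS i y hy).sx.log hy (u1 y hyU).2.1.ne',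
      (sx_nq hE he isOpen_univ hy trivial).log hy ((mem_nz_iff_nq hE e y).1 (u1 y hyU).2.2).ne'⟩
  obtain ⟨F, hF, hI⟩ := hor_sep PA Pr (inv hK) h hU (Φ := Φ) (ε := ε)
    (Bd := (1 - 1 / (r : ℝ)) * Real.log B1 + (c * Real.log B2 + ε * Real.log B3))
    (fun y hy => smN_of_sx (mem_ci y) (((sx _ y (mem_ci y) hy).1.cmul _).add
      (((sx _ y (mem_ci y) hy).2.1.cmul _).add ((sx _ y (mem_ci y) hy).2.2.cmul _))))
    (fun y hy => add_le_add (mul_le_mul_of_nonneg_left (l1 y hy) hb)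
      (add_le_add (mul_le_mul_of_nonneg_left (Real.log_le_log (u1 y hy).2.1 (b2 y)) hc)
        (mul_le_mul_of_nonneg_left (l3 y hy) hε.le))) hε
    (fun i y hy hyU ξ => by
      obtain ⟨s1, s2, s3⟩ := sx i y hy hyU
      have q1 := qf_log_nq h hσ isOpen_univ hy trivial ((mem_nz hσ hy).1 (u1 y hyU).1) ξ
      have q2 := (lS i y hy).log hy (u1 y hyU).2.1 ξ
      have q3 := qf_log_nq hE he isOpen_univ hy trivial ((mem_nz he hy).1 (u1 y hyU).2.2) ξ
      have q4 := hLp i y hy ξ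
      have e1 : ∀ {Q : LB A} (H : HM Q) (j : ℕ), qf (cur (pow H j) i y) ξ = j * qf (cur H i y) ξ :=
        fun H j => by
          rw [cur_pow H j i hy]
          exact_mod_cast qf_csmul j _ ξ
      have c1 : qf (cur h i y) ξ = r * qf (cur hK i y) ξ + qf (cur hL i y) ξ := by
        rw [hh, cur_mul _ _ i hy, qf_add, e1]
      have c3 : qf (cur hE i y) ξ = a * qf (cur hL i y) ξ - qf ((fsKah Pr).g i y) ξ := by
        rw [hhE, cur_mul _ _ i hy, qf_add, e1, cur_inv _ i hy, qf_neg]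
        rfl
      rw [e1] at q2
      rw [Pi.add_apply, Pi.add_apply, qf_add, Pi.sub_apply, Pi.sub_apply, qf_sub, Pi.neg_apply,
        Pi.neg_apply, qf_neg, cur_inv _ i hy, qf_neg, hΦ,
        qx_add (s1.cmul _) ((s2.cmul _).add (s3.cmul _)), qx_add (s2.cmul _) (s3.cmul _),
        qx_cmul _ s1, qx_cmul _ s2, qx_cmul _ s3, q1, q3, c1, c3]
      have e2 : (1 - 1 / (r : ℝ)) * (r * qf (cur hK i y) ξ) = (r - 1) * qf (cur hK i y) ξ := by
        field_simp
      nlinarith [mul_nonneg hc q2, mul_nonneg (sub_nonneg.2 hεa) q4])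
    hσ (sm_iff.2 hχ) hχ0 hχ1 cK
    (fun y hy => by
      by_cases h1 : y ∈ tsupport χ
      · exact ⟨1, not_not.1 fun h2 => hy ⟨h1, h2⟩⟩
      · exact ⟨0, notMem_tsupport_iff_eventuallyEq.1 h1⟩)
    (by
      refine lt_of_le_of_lt (lintegral_mono_ae ?_) (f4.add_const (-(1 / (r : ℝ) * Real.log B1)))
      filter_upwards [ae_restrict_of_ae hae] with y hy
      refine ENNReal.ofReal_le_ofReal ?_
      have h1 := (mem_nz_iff_nq h σ y).1 (u1 y hy).1
      rw [← Real.exp_log h1, ← Real.exp_add, Real.exp_le_exp, hΦ]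
      have h2 := mul_le_mul_of_nonneg_left (l1 y hy) (one_div_pos.2 hr').le
      simp only
      linarith)
  have sF := smS_sub (smS_fsm (sm_iff.2 hχ) (R273.SerA_945.IsHS.smS hσ))
    (R273.SerA_945.IsHS.smS hF)
  have van : ∀ z, z = x ∨ z = x' → (fsm χ σ - F) (ci A z) z = 0 := by
    intro z hz
    obtain ⟨D, hD, h1⟩ := hv z hz
    have h2 := vm_vanish (inv hK) hn (mem_ci z) (cont_of_sm (sm_nq h sF)).continuousAt
      (nq_nonneg h _ z) hT (B := (1 - 1 / (r : ℝ)) * Real.log B1 +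
        (c * Real.log D + ε * Real.log B3)) (Φ := Φ) h1 ?_ univ_mem
      (by rwa [Measure.restrict_univ])
    · by_contra h3
      exact (nq_pos h h3).ne' h2
    · filter_upwards [hae] with y hy h3
      have h4 : S y ≤ D * (‖A.e (ci A z) y - A.e (ci A z) z‖ ^ 2) ^ T := by
        rw [← pow_mul]
        exact h3
      have h5 := (u1 y hy).2.1
      have h6 : 0 < (‖A.e (ci A z) y - A.e (ci A z) z‖ ^ 2) ^ T :=
        (pos_iff_pos_of_mul_pos (h5.trans_le h4)).1 hD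
      have h7 := Real.log_le_log h5 h4
      rw [Real.log_mul hD.ne' h6.ne', Real.log_pow] at h7
      have h8 := mul_le_mul_of_nonneg_left (l1 y hy) hb
      have h9 := mul_le_mul_of_nonneg_left (l3 y hy) hε.le
      have h10 := mul_le_mul_of_nonneg_left h7 hc
      simp only [hΦ]
      linarith
  refine ⟨F, hF, ?_, ?_⟩
  · have h1 := van x (Or.inl rfl)
    simp only [Pi.sub_apply, fsm, (hχB x hx).self_of_nhds, ofReal_one, one_mul] at h1
    exact (sub_eq_zero.1 h1).symm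
  · have h1 := van x' (Or.inr rfl)
    have h2 : χ x' = 0 := image_eq_zero_of_notMem_tsupport fun h3 => hχs h3 hx'
    simpa only [Pi.sub_apply, fsm, h2, ofReal_zero, zero_mul, zero_sub, neg_eq_zero] using h1

end

end Crest.Agent.X262.Vol78
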