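import Crest.Agent.X262.Vol78.ConA
import Crest.Agent.X277.Dic.Fr
import Crest.Agent.X277.BD.BrA
import Crest.Agent.X277.BD.Pos
import Crest.Agent.X277.UP.AnA

/-!
# Row 262, package Vol78 (helper78), file `Conn`: connectedness in the language of b-divisors

* `LI X q u p` : `|u|^(-p)` is integrable near `q`;
* `conn`       : sections of `k L` of order `≥ T > n k r` at `x ∈ B`, `x' ∈ B'`, one of which is
  mildly singular at each point off `B ∪ B'`, give a section of `r K + L` separating `x` and `x'`.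
-/

set_option autoImplicit false
set_option linter.unusedSectionVars false

open Set Filter Topology MeasureTheory Module
open scoped ENNReal KaehlerDifferential

namespace Crest.Agent.X262.Vol78

open Crest.Agent.R275.Geo Crest.Agent.R275.Core144
open Crest.Agent.R273.Defs_333 Crest.Agent.R273.HM_333 Crest.Agent.R273.Kah_333
open Crest.Agent.R273.Vm_333
open Crest.Agent.R273.FS_333 (lb fs fsKah)
open Crest.Agent.R273.GreenM_5 (ci mem_ci)
open Crest.Agent.R273.SteinC_794 (nz mem_nz isOpen_nz)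
open Crest.Agent.X277 Crest.Agent.X277.Lef Crest.Agent.X277.AN Crest.Agent.X277.AN.G1
open Crest.Agent.X277.AN.G1.AnP Crest.Agent.X277.BD Crest.Agent.X277.BD.Br
open Crest.Agent.X277.Dic (IsFr isFr_O1)

noncomputable section

variable {F : Type} [Field F] [Algebra ℂ F] {P : PModel ℂ F} {n : ℕ}

/-- `|u|^(-p)` is integrable near `q` -/
def LI (X : AnP P n) (q : Pts P) (u : F) (p : ℝ) : Prop :=
  ∀ h0 : HM (KB X.A)⁻¹, ∃ V ∈ 𝓝 q, ∫⁻ y in V, ‖ev u y‖ₑ ^ (-p) ∂(vm h0) < ⊤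

variable {X : AnP P n}

theorem isFr_kP (X : AnP P n) (b : Basis (Fin n) F Ω[F⁄ℂ]) : IsFr (kP P b) (X.kF b) :=
  fun α x hx => by
    rw [fr_kF b hx]
    exact at_kP b (X.crd α x hx)

theorem nz_sec {a : BD ℂ F} {ψ : X.frm} (hψ : IsFr a ψ) {f : F} (hf : f ∈ a.Sec) (h0 : f ≠ 0) :
    (nz (sec ψ f)).Nonempty := by
  obtain ⟨α, y, hy, h⟩ := exists_sec_ne ψ h0
  exact ⟨y, (mem_nz (hψ.isHS hf) hy).2 h⟩

/-- the length of a section in a fixed chart -/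
theorem nq_sec_eq {a : BD ℂ F} {ψ : X.frm} (hψ : IsFr a ψ) {Q : LB X.A} (hQ : X.lbF ψ = Q)
    (H : HM Q) {f : F} (hf : f ∈ a.Sec) {α : X.A.ι} {y : Pts P} (hy : y ∈ (X.A.e α).source) :
    nq H (sec ψ f) y = ‖ev (f / fr ψ α) y‖ ^ 2 * H.w α y := by
  subst hQ
  rw [nq_eq_hs H (hψ.isHS hf) hy trivial, sec_eq _ _ hy]

theorem nq_low {a : BD ℂ F} {ψ : X.frm} (hψ : IsFr a ψ) {Q : LB X.A} (hQ : X.lbF ψ = Q)
    (H : HM Q) {f h : F} (hf : f ∈ a.Sec) {q : Pts P} (hh : At a q h) :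
    ∃ c : ℝ, 0 < c ∧ ∀ᶠ y in 𝓝 q, c * ‖ev (f / h) y‖ ^ 2 ≤ nq H (sec ψ f) y := by
  have hq := mem_ci (A := X.A) q
  set α := ci X.A q
  have h1 : ev (h / fr ψ α) q ≠ 0 := hh.ev_div_ne (hψ α q hq)
  have h2 := LP.mem_of_ne h1
  obtain ⟨c, hc, h3⟩ := exists_le_w H hq
  have h4 : 0 < ‖ev (h / fr ψ α) q‖ := norm_pos_iff.2 h1
  refine ⟨(‖ev (h / fr ψ α) q‖ / 2) ^ 2 * c, by positivity, ?_⟩
  filter_upwards [h3, (X.A.e α).open_source.mem_nhds hq, eventually_mem h2,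
    eventually_mem (hh.div_mem hf),
    (continuousAt_ev h2).norm.eventually_const_lt (half_lt_self h4)] with y a1 a2 a3 a4 a5
  have e : ev (f / fr ψ α) y = ev (f / h) y * ev (h / fr ψ α) y := by
    rw [← (lp y).v_mul a4 a3, div_mul_div_cancel₀ hh.ne]
  rw [nq_sec_eq hψ hQ H hf a2, e, norm_mul, mul_pow]
  have a6 : (‖ev (h / fr ψ α) q‖ / 2) ^ 2 ≤ ‖ev (h / fr ψ α) y‖ ^ 2 :=
    pow_le_pow_left₀ (by positivity) a5.le 2
  calc _ = ‖ev (f / h) y‖ ^ 2 * (‖ev (h / fr ψ α) q‖ / 2) ^ 2 * c := by ring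
    _ ≤ _ := mul_le_mul (mul_le_mul_of_nonneg_left a6 (by positivity)) a1 hc.le (by positivity)

theorem nq_up {a : BD ℂ F} {ψ : X.frm} (hψ : IsFr a ψ) {Q : LB X.A} (hQ : X.lbF ψ = Q)
    (H : HM Q) {ι : Type*} [Fintype ι] {g : ι → F} (hg : ∀ l, g l ∈ a.Sec) {z : Pts P} {h : F}
    (hh : At a z h) {T : ℕ} (hT : ∀ l, ∃ u ∈ (lp z).mx ^ T, g l = u * h) :
    ∃ D : ℝ, 0 < D ∧ ∀ᶠ y in 𝓝 z, ∑ l, nq H (sec ψ (g l)) y ≤
      D * ‖X.A.e (ci X.A z) y - X.A.e (ci X.A z) z‖ ^ (2 * T) := by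
  have hz := mem_ci (A := X.A) z
  set α := ci X.A z
  choose u hu hgu using hT
  have h2 : h / fr ψ α ∈ (lp z).O := LP.mem_of_ne (hh.ev_div_ne (hψ α z hz))
  obtain ⟨D, hD, h3⟩ := UP.sum_sq_le X hz (s := T) (g := fun l => u l * ⟨_, h2⟩)
    fun l => Ideal.mul_mem_right _ _ (hu l)
  obtain ⟨C, hC, h4⟩ := exists_w_le H hz
  refine ⟨D * C, by positivity, ?_⟩
  filter_upwards [h3, h4, (X.A.e α).open_source.mem_nhds hz] with y a1 a2 a3
  rw [Real.rpow_natCast] at a1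
  have e : ∑ l, nq H (sec ψ (g l)) y =
      (∑ l, ‖ev ((u l * ⟨_, h2⟩ : (lp z).O) : F) y‖ ^ 2) * H.w α y := by
    rw [Finset.sum_mul]
    refine Finset.sum_congr rfl fun l _ => ?_
    rw [nq_sec_eq hψ hQ H (hg l) a3, hgu l, mul_div_assoc]
    rfl
  rw [e]
  calc _ ≤ D * ‖X.A.e α y - X.A.e α z‖ ^ (2 * T) * C :=
        mul_le_mul a1 a2 (H.pos α y a3).le (by positivity)
    _ = _ := by ring

theorem exp_le_rpow {c S p : ℝ} (hc : 0 < c) (hp : 0 < p) {w : ℂ} (h : c * ‖w‖ ^ 2 ≤ S) :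
    ENNReal.ofReal (Real.exp (-(p / 2 * Real.log S))) ≤
      ENNReal.ofReal (c ^ (-(p / 2))) * ‖w‖ₑ ^ (-p) := by
  by_cases hw : w = 0
  · rw [hw, enorm_zero, ENNReal.zero_rpow_of_neg (neg_neg_of_pos hp), ENNReal.mul_top]
    · exact le_top
    · exact (ENNReal.ofReal_pos.2 (Real.rpow_pos_of_pos hc _)).ne'
  · have h1 : 0 < ‖w‖ := norm_pos_iff.2 hw
    have h2 : 0 < c * ‖w‖ ^ 2 := by positivity
    rw [← ofReal_norm, ENNReal.ofReal_rpow_of_pos h1,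
      ← ENNReal.ofReal_mul (Real.rpow_nonneg hc.le _), ← rpow_neg_eq_exp (h2.trans_le h)]
    refine ENNReal.ofReal_le_ofReal ?_
    refine (Real.rpow_le_rpow_of_nonpos h2 h (by linarith)).trans_eq ?_
    rw [Real.mul_rpow hc.le (by positivity), ← Real.rpow_natCast, ← Real.rpow_mul h1.le]
    congr 2
    push_cast
    ring

/-- connectedness -/
theorem conn (X : AnP P n) (b : Basis (Fin n) F Ω[F⁄ℂ]) (hn : 0 < n) {L : BD ℂ F} {φ : X.frm}
    (hφ : IsFr L φ) (hL : Free L) (hb : BD.Big L) {r k T : ℕ} (hr : 0 < r) {σ : F}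
    (hσ : σ ∈ (r • kP P b + L).Sec) {ι : Type*} [Fintype ι] {g : ι → F}
    (hg : ∀ l, g l ∈ (k • L).Sec) (hg0 : ∃ l, g l ≠ 0) (hT : n * k * r < T) {p : ℝ}
    (hp : 2 * n < p * T) {B B' : Set (Pts P)} (hB : IsClosed B) (hB' : IsClosed B')
    (hd : Disjoint B B')
    (hint : ∀ q, q ∉ B → q ∉ B' → ∃ l h, At (k • L) q h ∧ LI X q (g l / h) p)
    {x x' : Pts P} (hx : x ∈ B) (hx' : x' ∈ B') (hσx : At (r • kP P b + L) x σ)
    (hσx' : At (r • kP P b + L) x' σ)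
    (hv : ∀ z, z = x ∨ z = x' → ∃ h, At (k • L) z h ∧ ∀ l, ∃ u ∈ (lp z).mx ^ T, g l = u * h) :
    ∃ f ∈ (r • kP P b + L).Sec, ev (f / σ) x = 1 ∧ ev (f / σ) x' = 0 := by
  classical
  have := X.connected
  obtain ⟨hK⟩ := exists_hm X.PA (KB X.A)
  obtain ⟨h1⟩ := exists_hm X.PA (X.lbF φ)
  obtain ⟨w, hw⟩ := Gen.exists_qp (hφ.free_iff.1 hL) h1
  set hL' := tw h1 w hw.1 with hL'd
  have hLp : Nn (cur hL') := fun i y hy ξ => by
    rw [hL'd, cur_tw _ _ i hy, qf_add]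
    exact hw.2 i y hy ξ
  have fN := ((isFr_kP X b).nsmul r).add hφ
  have eN : X.lbF (X.kF b ^ r * φ) = KB X.A ^ r * X.lbF φ := by
    rw [map_mul, map_pow, ← X.KB_eq b]
  have fQ := hφ.nsmul k
  have eQ : X.lbF (φ ^ k) = X.lbF φ ^ k := map_pow _ _ _
  obtain ⟨a, -, e, he, he0⟩ := hb (oP P)
  have fE : IsFr (a • L - oP P) (φ ^ a * X.yF⁻¹) := (hφ.nsmul a).sub isFr_O1
  have eE : X.lbF (φ ^ a * X.yF⁻¹) = X.lbF φ ^ a * (lb X.Pr)⁻¹ := by
    rw [map_mul, map_pow, map_inv, X.lb_Pr]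
  have hT0 : (0 : ℝ) < T := by exact_mod_cast Nat.zero_lt_of_lt hT
  have hn0 : (0 : ℝ) < n := by exact_mod_cast hn
  have hp0 : 0 < p := (pos_iff_pos_of_mul_pos (lt_trans (by positivity) hp)).2 hT0
  obtain ⟨l0, hl0⟩ := hg0
  obtain ⟨S, hS, s1, s2⟩ := connA X.PA X.Pr hn hK hL' hLp hr (eN ▸ fN.isHS hσ) Finset.univ
    (g := fun l => sec (φ ^ k) (g l)) (fun l _ => eQ ▸ fQ.isHS (hg l))
    ⟨l0, Finset.mem_univ _, nz_sec fQ (hg l0) hl0⟩ (eE ▸ fE.isHS he) (nz_sec fE he he0)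
    (c := n / T) (p := p * T / (2 * n)) (by positivity)
    (by
      rw [div_mul_eq_mul_div, div_mul_eq_mul_div, div_lt_one hT0]
      exact_mod_cast hT)
    (by rwa [one_lt_div (by positivity)]) hB hB' hd
    (fun q hq hq' => by
      obtain ⟨l, h, hh, hI⟩ := hint q hq hq'
      obtain ⟨V, hV, hI⟩ := hI (inv hK)
      obtain ⟨c, hc, h2⟩ := nq_low fQ eQ (pow hL' k) (hg l) hh
      obtain ⟨W, hW, hWo, hWq⟩ := mem_nhds_iff.1 (inter_mem hV h2)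
      refine ⟨W, hWo.mem_nhds hWq, ?_⟩
      refine lt_of_le_of_lt (setLIntegral_mono' hWo.measurableSet
        (g := fun y => ENNReal.ofReal (c ^ (-(p / 2))) * ‖ev (g l / h) y‖ₑ ^ (-p))
        fun y hy => ?_) ?_
      · have e1 : ∀ s : ℝ, p * T / (2 * n) * (n / T * s) = p / 2 * s := fun s => by field_simp
        simp only [e1]
        exact exp_le_rpow hc hp0 ((hW hy).2.trans (Finset.single_le_sum
          (f := fun l => nq (pow hL' k) (sec (φ ^ k) (g l)) y) (fun l _ => nq_nonneg _ _ _)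
          (Finset.mem_univ l)))
      · rw [lintegral_const_mul' _ _ ENNReal.ofReal_ne_top]
        exact ENNReal.mul_lt_top ENNReal.ofReal_lt_top
          ((lintegral_mono_set fun y hy => (hW hy).1).trans_lt hI))
    hx hx' (fN.genAt_iff_nz.1 hσx) (T := T) (by rw [div_mul_cancel₀ _ hT0.ne'])
    (fun z hz => by
      obtain ⟨h, hh, hu⟩ := hv z hz
      exact nq_up fQ eQ (pow hL' k) hg hh hu)
  obtain ⟨f, hf, rfl⟩ := fN.exists_sec (eN.symm ▸ hS)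
  have key : ∀ z : Pts P, At (r • kP P b + L) z σ → ev (f / σ) z *
      sec (X.kF b ^ r * φ) σ (ci X.A z) z = sec (X.kF b ^ r * φ) f (ci X.A z) z ∧
      sec (X.kF b ^ r * φ) σ (ci X.A z) z ≠ 0 := fun z hz => by
    have h2 := hz.ev_div_ne (fN _ z (mem_ci z))
    rw [sec_eq _ _ (mem_ci z), sec_eq _ _ (mem_ci z)]
    refine ⟨?_, h2⟩
    rw [← (lp z).v_mul (hz.div_mem hf) (LP.mem_of_ne h2), div_mul_div_cancel₀ hz.ne]
  refine ⟨f, hf, ?_, ?_⟩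
  · obtain ⟨k1, k2⟩ := key x hσx
    rw [s1] at k1
    exact mul_right_cancel₀ k2 (k1.trans (one_mul _).symm)
  · obtain ⟨k1, k2⟩ := key x' hσx'
    rw [s2] at k1
    exact (mul_eq_zero.1 k1).resolve_right k2

end

end Crest.Agent.X262.Vol78
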