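import Crest.Agent.X277.AN.G1TayC
import Crest.Agent.X277.AN.G1Can
import Crest.Agent.X277.BD.BrA

/-!
# Row 262, package Vol78 (helper78), file `Fib`: the discs of a fibration by curves

* `Sf y x x'`  : the functions `y i` agree at `x` and `x'`;
* `Van y q f`  : `f` vanishes on the fibre of `y` through `q`, near `q`;
* `PC X y q`   : a product chart `(z, y)` at `q`;
* `PC.disc`, `van_pd`, `not_van`, `good_closed` : consequences of the identity theorem.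
-/

set_option autoImplicit false
set_option linter.unusedSectionVars false

open Set Filter Topology Module Metric
open scoped KaehlerDifferential

namespace Crest.Agent.X262.Vol78

open Crest.Agent.R275.Geo Crest.Agent.R275.Core144
open Crest.Agent.X277 Crest.Agent.X277.Lef Crest.Agent.X277.AN Crest.Agent.X277.AN.G1
open Crest.Agent.X277.AN.G1.AnP Crest.Agent.X277.BD Crest.Agent.X277.BD.Br

noncomputable section

variable {F : Type} [Field F] [Algebra ℂ F] {P : PModel ℂ F} {m : ℕ}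

/-- the coordinates `(z, y)` -/
def cs (z : F) (y : Fin m → F) : Fin (m + 1) → F := Fin.cons z y

@[simp] theorem cs_zero (z : F) (y : Fin m → F) : cs z y 0 = z := rfl

@[simp] theorem cs_succ (z : F) (y : Fin m → F) (i : Fin m) : cs z y i.succ = y i := rfl

/-- the same values of `y` -/
def Sf (y : Fin m → F) (x x' : Pts P) : Prop := ∀ i, ev (y i) x = ev (y i) x'

theorem Sf.symm {y : Fin m → F} {x x' : Pts P} (h : Sf y x x') : Sf y x' x := fun i => (h i).symm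

theorem Sf.trans {y : Fin m → F} {x x' x'' : Pts P} (h : Sf y x x') (h' : Sf y x' x'') :
    Sf y x x'' := fun i => (h i).trans (h' i)

/-- vanishing along the fibre -/
def Van (y : Fin m → F) (q : Pts P) (f : F) : Prop := ∀ᶠ x in 𝓝 q, Sf y x q → ev f x = 0

/-- `y` is submersive at `q` -/
def Sm (y : Fin m → F) (q : Pts P) : Prop := ∃ z, (lp q).Crd (cs z y)

theorem Van.self {y : Fin m → F} {q : Pts P} {f : F} (h : Van y q f) : ev f q = 0 :=
  h.self_of_nhds fun _ => rfl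

theorem crd_eventually {n : ℕ} (b : Basis (Fin n) F Ω[F⁄ℂ]) {q : Pts P} {u : Fin n → F}
    (h : (lp q).Crd u) : ∀ᶠ x in 𝓝 q, (lp x).Crd u := by
  filter_upwards [(at_kP b h).eventually, eventually_all.2 fun l => eventually_mem (h.mem l)]
    with x h1 h2
  exact (crd_iff_at b h2).2 h1

theorem isOpen_sm (b : Basis (Fin (m + 1)) F Ω[F⁄ℂ]) (y : Fin m → F) :
    IsOpen {q : Pts P | Sm y q} :=
  isOpen_iff_mem_nhds.2 fun _ ⟨z, hz⟩ => (crd_eventually b hz).mono fun _ h => ⟨z, h⟩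

theorem Sm.mem {y : Fin m → F} {q : Pts P} (h : Sm y q) (i : Fin m) : y i ∈ (lp q).O :=
  h.elim fun _ hz => hz.mem i.succ

/-- a product chart -/
structure PC (X : AnP P (m + 1)) (y : Fin m → F) (q : Pts P) where
  /-- the coordinate along the fibre -/
  z : F
  /-- the analytic chart -/
  c : AN.Crd X.A q
  /-- the numbering -/
  σ : Fin (m + 1) ≃ Fin (m + 1)
  /-- the radius -/
  r : ℝ
  r_pos : 0 < r
  sub : pd (m + 1) r ⊆ c.φ.target
  crd : ∀ w ∈ pd (m + 1) r, (lp (c.inv w)).Crd (cs z y)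
  eq : ∀ w ∈ pd (m + 1) r, ∀ l, ev (cs z y l) (c.inv w) = ev (cs z y l) q + w (σ l)

variable {X : AnP P (m + 1)} {y : Fin m → F} {q : Pts P}

theorem exists_PC (X : AnP P (m + 1)) (b : Basis (Fin (m + 1)) F Ω[F⁄ℂ]) {z : F}
    (h : (lp q).Crd (cs z y)) {p : Pts P → Prop} (hp : ∀ᶠ x in 𝓝 q, p x) :
    ∃ C : PC X y q, C.z = z ∧ ∀ w ∈ pd (m + 1) C.r, p (C.c.inv w) := by
  obtain ⟨α, hα⟩ := X.A.cover q
  obtain ⟨c, σ, hc, h1⟩ := AnP.exists_crd hα h
  obtain ⟨r, hr, h2⟩ := exists_pd_subset (inter_mem c.target_mem_nhds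
    (c.eventually_iff.1 (hp.and (crd_eventually b h))))
  refine ⟨⟨z, c, σ, r, hr, fun w hw => (h2 hw).1, fun w hw => (h2 hw).2.2, fun w hw l => ?_⟩, rfl,
    fun w hw => (h2 hw).2.1⟩
  have h3 := h1 l (c.inv w) (hc ▸ (c.inv_mem (h2 hw).1).1)
  rw [c.z_inv (h2 hw).1] at h3
  unfold ev at h3 ⊢
  rw [h3, LP.v_sub ((h2 hw).2.2.mem l) (algebraMap_mem _ _), LP.v_alg]
  ring

namespace PC

variable (C : PC X y q) {w w' : Cn (m + 1)} {f : F}

/-- the direction of the fibre -/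
def e : Cn (m + 1) := EuclideanSpace.single (C.σ 0) 1

theorem ln_zero (w : Cn (m + 1)) (t : ℂ) : (w + t • C.e) (C.σ 0) = w (C.σ 0) + t := by
  simp [e]

theorem ln_succ (w : Cn (m + 1)) (t : ℂ) (i : Fin m) :
    (w + t • C.e) (C.σ i.succ) = w (C.σ i.succ) := by
  simp [e]

theorem zero_mem : (0 : Cn (m + 1)) ∈ pd (m + 1) C.r := zero_mem_pd C.r_pos

theorem ev_z (hw : w ∈ pd (m + 1) C.r) : ev C.z (C.c.inv w) = ev C.z q + w (C.σ 0) := C.eq w hw 0

theorem ev_y (hw : w ∈ pd (m + 1) C.r) (i : Fin m) :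
    ev (y i) (C.c.inv w) = ev (y i) q + w (C.σ i.succ) := C.eq w hw i.succ

theorem nhds_iff (hw : w ∈ pd (m + 1) C.r) {p : Pts P → Prop} :
    (∀ᶠ x in 𝓝 (C.c.inv w), p x) ↔ ∀ᶠ w' in 𝓝 w, p (C.c.inv w') := by
  refine ⟨fun h => (C.c.continuousAt_inv (C.sub hw)).eventually h, fun h => ?_⟩
  have h1 := C.c.inv_mem (C.sub hw)
  have h2 := C.c.continuousAt_zz h1
  rw [ContinuousAt, C.c.zz_inv (C.sub hw)] at h2
  filter_upwards [h2.eventually h, C.c.isOpen_dom.mem_nhds h1] with x h3 h4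
  rwa [C.c.inv_zz h4] at h3

theorem nhds_q {p : Pts P → Prop} : (∀ᶠ x in 𝓝 q, p x) ↔ ∀ᶠ w in 𝓝 0, p (C.c.inv w) :=
  C.c.eventually_iff

theorem sf_ln (hw : w ∈ pd (m + 1) C.r) {t : ℂ} (ht : w + t • C.e ∈ pd (m + 1) C.r) :
    Sf y (C.c.inv (w + t • C.e)) (C.c.inv w) := fun i => by
  rw [C.ev_y hw, C.ev_y ht, C.ln_succ]

theorem eq_ln (hw : w ∈ pd (m + 1) C.r) (hw' : w' ∈ pd (m + 1) C.r)
    (h : Sf y (C.c.inv w') (C.c.inv w)) : w' = w + (w' (C.σ 0) - w (C.σ 0)) • C.e := by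
  ext a
  obtain ⟨l, rfl⟩ := C.σ.surjective a
  refine Fin.cases ?_ (fun i => ?_) l
  · rw [C.ln_zero]
    ring
  · have h1 := h i
    rw [C.ev_y hw, C.ev_y hw'] at h1
    rw [C.ln_succ]
    exact add_left_cancel h1

theorem tendsto_ln (w : Cn (m + 1)) : Tendsto (fun t : ℂ => w + t • C.e) (𝓝 0) (𝓝 w) := by
  have : Continuous fun t : ℂ => w + t • C.e := by fun_prop
  simpa using this.tendsto 0

theorem van_iff (hw : w ∈ pd (m + 1) C.r) :
    Van y (C.c.inv w) f ↔ ∀ᶠ t in 𝓝 (0 : ℂ), ev f (C.c.inv (w + t • C.e)) = 0 := by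
  rw [Van, C.nhds_iff hw]
  have h0 := (isOpen_pd C.r).mem_nhds hw
  constructor
  · intro h
    filter_upwards [(C.tendsto_ln w).eventually h, (C.tendsto_ln w).eventually h0] with t h1 h2
    exact h1 (C.sf_ln hw h2)
  · intro h
    have h1 : Tendsto (fun w' : Cn (m + 1) => w' (C.σ 0) - w (C.σ 0)) (𝓝 w) (𝓝 0) := by
      have : Continuous fun w' : Cn (m + 1) => w' (C.σ 0) - w (C.σ 0) := by fun_prop
      simpa using this.tendsto w
    filter_upwards [h1.eventually h, h0] with w' h2 h3 h4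
    rwa [← C.eq_ln hw h3 h4] at h2

theorem van_q : Van y q f ↔ ∀ᶠ t in 𝓝 (0 : ℂ), ev f (C.c.inv (0 + t • C.e)) = 0 := by
  rw [← C.van_iff C.zero_mem, C.c.inv_zero]

theorem an (hw : w ∈ pd (m + 1) C.r) (hf : f ∈ (lp (C.c.inv w)).O) :
    AnalyticAt ℂ (fun w => ev f (C.c.inv w)) w :=
  C.c.analyticAt_inv (isOpen_reg f) (X.hol _ f) (C.sub hw) hf

theorem an_ln {t : ℂ} (ht : w + t • C.e ∈ pd (m + 1) C.r)
    (hf : f ∈ (lp (C.c.inv (w + t • C.e))).O) :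
    AnalyticAt ℂ (fun t : ℂ => ev f (C.c.inv (w + t • C.e))) t :=
  AnalyticAt.comp (f := fun t : ℂ => w + t • C.e) (C.an ht hf) (by fun_prop)

theorem mem_ln (hw : w ∈ pd (m + 1) C.r) {t : ℂ} :
    w + t • C.e ∈ pd (m + 1) C.r ↔ t ∈ ball (-w (C.σ 0)) C.r := by
  rw [mem_ball, dist_eq_norm, sub_neg_eq_add, add_comm t, ← C.ln_zero]
  refine ⟨fun h => h _, fun h a => ?_⟩
  obtain ⟨l, rfl⟩ := C.σ.surjective a
  refine Fin.cases h (fun i => ?_) l
  rw [C.ln_succ]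
  exact hw _

/-- the identity theorem on a disc -/
theorem disc (hf : ∀ w ∈ pd (m + 1) C.r, f ∈ (lp (C.c.inv w)).O) (hw : w ∈ pd (m + 1) C.r)
    (h : Van y (C.c.inv w) f) {t : ℂ} (ht : w + t • C.e ∈ pd (m + 1) C.r) :
    ev f (C.c.inv (w + t • C.e)) = 0 := by
  have h1 : AnalyticOnNhd ℂ (fun t : ℂ => ev f (C.c.inv (w + t • C.e)))
      (ball (-w (C.σ 0)) C.r) := fun t ht =>
    C.an_ln ((C.mem_ln hw).2 ht) (hf _ ((C.mem_ln hw).2 ht))
  exact h1.eqOn_zero_of_preconnected_of_eventuallyEq_zero (convex_ball _ _).isPreconnected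
    ((C.mem_ln hw).1 (by simpa using hw)) ((C.van_iff hw).1 h) ((C.mem_ln hw).1 ht)

theorem van_ln (hf : ∀ w ∈ pd (m + 1) C.r, f ∈ (lp (C.c.inv w)).O) (hw : w ∈ pd (m + 1) C.r)
    (h : Van y (C.c.inv w) f) {t : ℂ} (ht : w + t • C.e ∈ pd (m + 1) C.r) :
    Van y (C.c.inv (w + t • C.e)) f := by
  rw [C.van_iff ht]
  filter_upwards [(C.tendsto_ln _).eventually ((isOpen_pd C.r).mem_nhds ht)] with s hs
  rw [add_assoc, ← add_smul] at hs ⊢
  exact C.disc hf hw h hs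

/-- the derivative along the fibre -/
theorem hasDerivAt_ln (b : Basis (Fin (m + 1)) F Ω[F⁄ℂ]) (hw : w ∈ pd (m + 1) C.r)
    (hf : f ∈ (lp (C.c.inv w)).O) : HasDerivAt (fun t : ℂ => ev f (C.c.inv (w + t • C.e)))
      (ev (G1.pd b (cs C.z y) 0 f) (C.c.inv w)) 0 := by
  have hc := C.crd w hw
  obtain ⟨d, hd, h1⟩ := hc.gen f hf
  have h2 : ev (G1.pd b (cs C.z y) 0 f) (C.c.inv w) = ev (d 0) (C.c.inv w) :=
    hc.v_pd (fin_lp _) b hd h1 0
  have h0 : w + (0 : ℂ) • C.e = w := by simp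
  have h3 : HasDerivAt (fun t : ℂ => ev f (C.c.inv w) + ev (d 0) (C.c.inv (w + t • C.e)) * t)
      (ev (d 0) (C.c.inv w)) 0 := by
    have h4 := (C.an_ln (w := w) (t := 0) (f := d 0) (by rwa [h0])
      (by rw [h0]; exact hd 0)).differentiableAt.hasDerivAt
    simpa using (h4.mul (hasDerivAt_id (0 : ℂ))).const_add (ev f (C.c.inv w))
  rw [h2]
  refine h3.congr_of_eventuallyEq ?_
  filter_upwards [(C.tendsto_ln w).eventually ((C.nhds_iff hw).1
    (eventually_all.2 fun l => eventually_mem (hd l))),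
    (C.tendsto_ln w).eventually ((isOpen_pd C.r).mem_nhds hw)] with t h5 h6
  have h7 := (C.crd _ h6).mem
  have h8 : ∀ l, cs C.z y l - algebraMap ℂ F ((lp (C.c.inv w)).v (cs C.z y l)) ∈
      (lp (C.c.inv (w + t • C.e))).O := fun l => sub_mem (h7 l) (algebraMap_mem _ _)
  have h9 : ∀ l, ev (d l * (cs C.z y l - algebraMap ℂ F ((lp (C.c.inv w)).v (cs C.z y l))))
      (C.c.inv (w + t • C.e)) =
      ev (d l) (C.c.inv (w + t • C.e)) * ((w + t • C.e) (C.σ l) - w (C.σ l)) := fun l => by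
    have e1 := C.eq _ h6 l
    have e2 := C.eq _ hw l
    unfold ev at e1 e2 ⊢
    rw [LP.v_mul _ (h5 l) (h8 l), LP.v_sub (h7 l) (algebraMap_mem _ _), LP.v_alg, e1, e2]
    ring
  have h10 := congrArg (lp (C.c.inv (w + t • C.e))).v h1
  rw [LP.v_add _ (algebraMap_mem _ _) (sum_mem fun l _ => mul_mem (h5 l) (h8 l)), LP.v_alg,
    LP.v_sum _ fun l _ => mul_mem (h5 l) (h8 l)] at h10
  refine h10.trans ?_
  congr 1
  rw [Finset.sum_congr rfl fun l _ => h9 l, Fin.sum_univ_succ, C.ln_zero]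
  simp only [C.ln_succ, sub_self, mul_zero, Finset.sum_const_zero, add_zero, add_sub_cancel_left]

theorem hasDerivAt_ln' (b : Basis (Fin (m + 1)) F Ω[F⁄ℂ]) {t : ℂ}
    (ht : w + t • C.e ∈ pd (m + 1) C.r) (hf : f ∈ (lp (C.c.inv (w + t • C.e))).O) :
    HasDerivAt (fun t : ℂ => ev f (C.c.inv (w + t • C.e)))
      (ev (G1.pd b (cs C.z y) 0 f) (C.c.inv (w + t • C.e))) t := by
  have h1 := C.hasDerivAt_ln b ht hf
  rw [← sub_self t] at h1
  refine (h1.comp_sub_const t t).congr_of_eventuallyEq (Eventually.of_forall fun s => ?_)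
  simp only [add_assoc, ← add_smul, add_sub_cancel]

/-- functions killed by the fibre derivation are constant on the discs -/
theorem const_ln (b : Basis (Fin (m + 1)) F Ω[F⁄ℂ])
    (hf : ∀ w ∈ pd (m + 1) C.r, f ∈ (lp (C.c.inv w)).O) (h0 : G1.pd b (cs C.z y) 0 f = 0)
    (hw : w ∈ pd (m + 1) C.r) {t : ℂ} (ht : w + t • C.e ∈ pd (m + 1) C.r) :
    ev f (C.c.inv (w + t • C.e)) = ev f (C.c.inv w) := by
  have h1 : ∀ t ∈ ball (-w (C.σ 0)) C.r,
      HasDerivAt (fun t : ℂ => ev f (C.c.inv (w + t • C.e))) 0 t := fun t ht => by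
    have h2 := C.hasDerivAt_ln' b ((C.mem_ln hw).2 ht) (hf _ ((C.mem_ln hw).2 ht))
    rwa [h0, ev, LP.v_zero] at h2
  have h2 := isOpen_ball.is_const_of_deriv_eq_zero (convex_ball _ _).isPreconnected
    (fun t ht => (h1 t ht).differentiableAt.differentiableWithinAt)
    (fun t ht => (h1 t ht).deriv) ((C.mem_ln hw).1 ht)
    ((C.mem_ln hw (t := 0)).1 (by simpa using hw))
  simpa using h2

/-- moving along the discs to the slice through `t₁` -/
theorem slide {t₁ : ℂ} (h₁ : 0 + t₁ • C.e ∈ pd (m + 1) C.r) {p : Pts P → Prop}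
    (hp : ∀ᶠ x in 𝓝 (C.c.inv (0 + t₁ • C.e)), p x) : ∀ᶠ w in 𝓝 (0 : Cn (m + 1)),
      w ∈ pd (m + 1) C.r ∧ ∃ t : ℂ, w + t • C.e ∈ pd (m + 1) C.r ∧ p (C.c.inv (w + t • C.e)) := by
  have h1 : Tendsto (fun w : Cn (m + 1) => w + t₁ • C.e) (𝓝 0) (𝓝 (0 + t₁ • C.e)) :=
    (by fun_prop : Continuous fun w : Cn (m + 1) => w + t₁ • C.e).tendsto 0
  filter_upwards [h1.eventually ((C.nhds_iff h₁).1 hp),
    h1.eventually ((isOpen_pd C.r).mem_nhds h₁), pd_mem_nhds C.r_pos] with w h2 h3 h4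
  exact ⟨h4, t₁, h3, h2⟩

end PC

theorem van_pd (X : AnP P (m + 1)) (b : Basis (Fin (m + 1)) F Ω[F⁄ℂ]) {z f : F}
    (hz : (lp q).Crd (cs z y)) (hf : f ∈ (lp q).O) (h : Van y q f) :
    Van y q (G1.pd b (cs z y) 0 f) := by
  obtain ⟨C, rfl, hC⟩ := exists_PC X b hz (eventually_mem hf)
  rw [C.van_q] at h ⊢
  filter_upwards [h.eventually_nhds,
    (C.tendsto_ln 0).eventually (pd_mem_nhds C.r_pos)] with t h1 h2
  exact (C.hasDerivAt_ln' b h2 (hC _ h2)).unique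
    ((hasDerivAt_const t (0 : ℂ)).congr_of_eventuallyEq h1)

theorem not_van (X : AnP P (m + 1)) (b : Basis (Fin (m + 1)) F Ω[F⁄ℂ]) (hq : Sm y q) {f : F}
    (hf : f ∈ (lp q).O) (h : ¬ Van y q f) : ∀ᶠ x in 𝓝 q, ¬ Van y x f := by
  obtain ⟨z, hz⟩ := hq
  obtain ⟨C, rfl, hC⟩ := exists_PC X b hz (eventually_mem hf)
  rw [C.van_q, not_eventually] at h
  obtain ⟨t₁, h1, h2⟩ :=
    (h.and_eventually ((C.tendsto_ln 0).eventually (pd_mem_nhds C.r_pos))).exists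
  rw [C.nhds_q]
  filter_upwards [C.slide h2 ((isOpen_ev_ne f).mem_nhds h1)] with w ⟨hw, t, ht, h3⟩ h4
  exact h3 (C.disc hC hw h4 ht)

/-- the section `g` of `a` vanishes along the fibre -/
def VanS (a : BD ℂ F) (y : Fin m → F) (q : Pts P) (g : F) : Prop :=
  ∀ᶠ x in 𝓝 q, Sf y x q → ¬ At a x g

theorem vanS_iff {a : BD ℂ F} {g h : F} (hh : At a q h) : VanS a y q g ↔ Van y q (g / h) :=
  eventually_congr (hh.eventually.mono fun _ hx => by rw [hx.iff_ev, not_not])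

/-- the set of points of a fibre near which the common zero discs lie in the fibre is closed -/
theorem good_closed (X : AnP P (m + 1)) (b : Basis (Fin (m + 1)) F Ω[F⁄ℂ]) (hq : Sm y q)
    {a : BD ℂ F} (ha : a ∈ On P) {ι : Type*} {g : ι → F} (hg : ∀ l, g l ∈ a.Sec)
    (h : ∃ᶠ q₁ in 𝓝 q, Sf y q₁ q ∧ ∀ᶠ x in 𝓝 q₁, (∀ l, VanS a y x (g l)) → Sf y x q) :
    ∀ᶠ x in 𝓝 q, (∀ l, VanS a y x (g l)) → Sf y x q := by
  obtain ⟨z, hz⟩ := hq
  obtain ⟨h0, hh⟩ := ha q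
  obtain ⟨C, rfl, hC⟩ := exists_PC X b hz hh.eventually
  have h1 : ∃ᶠ w in 𝓝 (0 : Cn (m + 1)), Sf y (C.c.inv w) q ∧
      ∀ᶠ x in 𝓝 (C.c.inv w), (∀ l, VanS a y x (g l)) → Sf y x q := by
    by_contra h2
    exact h (C.nhds_q.2 (not_frequently.1 h2))
  obtain ⟨w₁, ⟨h2, h3⟩, h4⟩ := (h1.and_eventually (pd_mem_nhds C.r_pos)).exists
  have h5 := C.eq_ln C.zero_mem h4 (by rwa [C.c.inv_zero])
  rw [h5] at h3 h4
  rw [C.nhds_q]
  filter_upwards [C.slide h4 h3] with w ⟨hw, t, ht, h6⟩ h7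
  refine (C.sf_ln hw ht).symm.trans (h6 fun l => ?_)
  rw [vanS_iff (hC _ ht)]
  exact C.van_ln (fun w hw => (hC w hw).div_mem (hg l)) hw ((vanS_iff (hC _ hw)).1 (h7 l)) ht

end

end Crest.Agent.X262.Vol78
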