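import Crest.Agent.R276.SkoA_567

/-!
# Row 262, package Vol78 (helper78), file `Sko`: sharp local integrability

* `zl`  : a holomorphic function on a disc which is not too small on a circle is bounded below by a
  monic polynomial of small degree;
* `sko` : if `f` has order `≤ m` along one line through `w0`, then `|f|^(-p)` is integrable near
  `w0` for `p m < 2`.
-/

set_option autoImplicit false

open Set Filter Topology MeasureTheory Metric
open scoped ENNReal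

namespace Crest.Agent.X262.Vol78

/-- lower bound by a monic polynomial -/
theorem zl {ρ R : ℝ} (hρ : 0 < ρ) (hR : ρ < R) (hρ1 : 2 * ρ ≤ 1) : ∀ (k : ℕ) (φ : ℂ → ℂ)
    (Mx c : ℝ), DifferentiableOn ℂ φ (ball 0 (2 * R)) → (∀ t ∈ closedBall (0 : ℂ) R, ‖φ t‖ ≤ Mx) →
    (∀ t ∈ sphere (0 : ℂ) ρ, c ≤ ‖φ t‖) → Mx * (1 / (R - ρ)) ^ k * (2 * ρ) ^ k < c →
    ∃ s : Multiset ℂ, Multiset.card s < k ∧
      ∀ t ∈ closedBall (0 : ℂ) ρ, c * ‖(s.map fun a => t - a).prod‖ ≤ ‖φ t‖ := by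
  have hρs : ((ρ : ℝ) : ℂ) ∈ sphere (0 : ℂ) ρ := by simp [abs_of_pos hρ]
  have hsub : sphere (0 : ℂ) ρ ⊆ closedBall 0 R :=
    sphere_subset_closedBall.trans (closedBall_subset_closedBall hR.le)
  have hRR : closedBall (0 : ℂ) R ⊆ ball 0 (2 * R) := closedBall_subset_ball (by linarith)
  have hρR : closedBall (0 : ℂ) ρ ⊆ closedBall 0 R := closedBall_subset_closedBall hR.le
  have hd : 0 < R - ρ := by linarith
  intro k
  induction k with
  | zero =>
    intro φ Mx c _ h1 h2 h3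
    have h4 := (h2 _ hρs).trans (h1 _ (hsub hρs))
    simp only [pow_zero, mul_one] at h3
    linarith
  | succ k ih =>
    intro φ Mx c hφ h1 h2 h3
    have hM : 0 ≤ Mx := (norm_nonneg _).trans (h1 _ (hsub hρs))
    have hc : 0 < c := lt_of_le_of_lt (by positivity) h3
    by_cases hz : ∃ a ∈ closedBall (0 : ℂ) ρ, φ a = 0
    · obtain ⟨a, ha, ha0⟩ := hz
      have haR : a ∈ ball (0 : ℂ) (2 * R) := hRR (hρR ha)
      have hψ : DifferentiableOn ℂ (dslope φ a) (ball 0 (2 * R)) :=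
        (Complex.differentiableOn_dslope (isOpen_ball.mem_nhds haR)).2 hφ
      have he : ∀ t, φ t = (t - a) * dslope φ a t := fun t => by
        have := sub_smul_dslope φ a t
        rw [ha0, sub_zero, smul_eq_mul] at this
        exact this.symm
      have hna : ‖a‖ ≤ ρ := mem_closedBall_zero_iff.1 ha
      have b1 : ∀ t ∈ closedBall (0 : ℂ) R, ‖dslope φ a t‖ ≤ Mx * (1 / (R - ρ)) := by
        intro t ht
        have hR0 : R ≠ 0 := by linarith
        refine Complex.norm_le_of_forall_mem_frontier_norm_le (U := ball (0 : ℂ) R)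
          isBounded_ball ?_ (fun z hz => ?_) (by rwa [closure_ball _ hR0])
        · refine DifferentiableOn.diffContOnCl ?_
          rw [closure_ball _ hR0]
          exact hψ.mono hRR
        · rw [frontier_ball _ hR0] at hz
          have h5 : ‖z‖ = R := mem_sphere_zero_iff_norm.1 hz
          have h6 : R - ρ ≤ ‖z - a‖ := by
            have := norm_sub_norm_le z a
            linarith
          have h7 := h1 z (sphere_subset_closedBall hz)
          rw [he z, norm_mul] at h7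
          rw [mul_one_div, le_div_iff₀ hd]
          nlinarith [norm_nonneg (dslope φ a z)]
      have b2 : ∀ t ∈ sphere (0 : ℂ) ρ, c / (2 * ρ) ≤ ‖dslope φ a t‖ := by
        intro t ht
        have h5 : ‖t‖ = ρ := mem_sphere_zero_iff_norm.1 ht
        have h6 : ‖t - a‖ ≤ 2 * ρ := by
          have := norm_sub_le t a
          linarith
        have h7 := h2 t ht
        rw [he t, norm_mul] at h7
        rw [div_le_iff₀ (by positivity)]
        nlinarith [norm_nonneg (dslope φ a t)]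
      obtain ⟨s, hs, H⟩ := ih (dslope φ a) _ _ hψ b1 b2 (by
        rw [lt_div_iff₀ (by positivity)]
        refine lt_of_eq_of_lt ?_ h3
        ring)
      refine ⟨a ::ₘ s, by simpa using hs, fun t ht => ?_⟩
      rw [Multiset.map_cons, Multiset.prod_cons, norm_mul, he t, norm_mul]
      have h5 := H t ht
      have h6 : c ≤ c / (2 * ρ) := by
        rw [le_div_iff₀ (by positivity)]
        nlinarith
      have h7 := mul_le_mul_of_nonneg_right h6 (norm_nonneg (s.map fun a => t - a).prod)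
      nlinarith [norm_nonneg (t - a)]
    · push Not at hz
      refine ⟨0, by simp, fun t ht => ?_⟩
      have h5 : ‖(φ t)⁻¹‖ ≤ c⁻¹ := by
        refine Complex.norm_le_of_forall_mem_frontier_norm_le (f := fun t => (φ t)⁻¹)
          (U := ball (0 : ℂ) ρ) isBounded_ball ?_ (fun z hz' => ?_)
          (by rwa [closure_ball _ hρ.ne'])
        · refine DifferentiableOn.diffContOnCl ?_
          rw [closure_ball _ hρ.ne']
          exact (hφ.mono (hρR.trans hRR)).inv hz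
        · rw [frontier_ball _ hρ.ne'] at hz'
          rw [norm_inv]
          exact inv_anti₀ hc (h2 z hz')
      rw [norm_inv] at h5
      simpa using (inv_le_inv₀ (norm_pos_iff.2 (hz t ht)) hc).1 h5

/-- the uniform bound for the integral over a disc -/
theorem zl_int {ρ R : ℝ} (hρ : 0 < ρ) (hR : ρ < R) (hρ1 : 2 * ρ ≤ 1) (m : ℕ) {p : ℝ} (hp : 0 ≤ p)
    (hpm : p * m < 2) {Mx c : ℝ} (hc : Mx * (1 / (R - ρ)) ^ (m + 1) * (2 * ρ) ^ (m + 1) < c)
    (hc0 : 0 < c) : ∃ C : ℝ≥0∞, C < ⊤ ∧ ∀ φ : ℂ → ℂ, DifferentiableOn ℂ φ (ball 0 (2 * R)) →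
      (∀ t ∈ closedBall (0 : ℂ) R, ‖φ t‖ ≤ Mx) → (∀ t ∈ sphere (0 : ℂ) ρ, c ≤ ‖φ t‖) →
      ∫⁻ t in closedBall (0 : ℂ) ρ, ‖φ t‖ₑ ^ (-p) ≤ C := by
  obtain ⟨C, hC, H⟩ := R276.SkoA_567.sko1 m p hp hpm ρ
  have hc' : ENNReal.ofReal c ^ (-p) ≠ ⊤ := by
    rw [ENNReal.rpow_neg]
    exact ENNReal.inv_ne_top.2 (ENNReal.rpow_pos (ENNReal.ofReal_pos.2 hc0)
      ENNReal.ofReal_ne_top).ne'
  refine ⟨ENNReal.ofReal c ^ (-p) * C, ENNReal.mul_lt_top hc'.lt_top hC, fun φ h1 h2 h3 => ?_⟩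
  obtain ⟨s, hs, h4⟩ := zl hρ hR hρ1 (m + 1) φ Mx c h1 h2 h3 hc
  set Q : Polynomial ℂ := (s.map fun a => Polynomial.X - Polynomial.C a).prod with hQ
  have hdeg : Q.natDegree = Multiset.card s := Polynomial.natDegree_multiset_prod_X_sub_C_eq_card s
  have hmon : Q.Monic := Polynomial.monic_multiset_prod_of_monic _ _
    fun a _ => Polynomial.monic_X_sub_C a
  have h5 := H Q (by omega) Q.natDegree
  rw [hmon.coeff_natDegree] at h5
  simp only [enorm_one, ENNReal.one_rpow, mul_one] at h5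
  have hev : ∀ t, Q.eval t = (s.map fun a => t - a).prod := fun t => by
    rw [hQ, Polynomial.eval_multiset_prod, Multiset.map_map]
    simp
  calc ∫⁻ t in closedBall (0 : ℂ) ρ, ‖φ t‖ₑ ^ (-p)
      ≤ ∫⁻ t in closedBall (0 : ℂ) ρ, ENNReal.ofReal c ^ (-p) * ‖Q.eval t‖ₑ ^ (-p) := by
        refine setLIntegral_mono' measurableSet_closedBall fun t ht => ?_
        rw [← ENNReal.mul_rpow_of_ne_top ENNReal.ofReal_ne_top enorm_ne_top, ENNReal.rpow_neg,
          ENNReal.rpow_neg]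
        refine ENNReal.inv_le_inv.2 (ENNReal.rpow_le_rpow ?_ hp)
        rw [← ofReal_norm, ← ofReal_norm, ← ENNReal.ofReal_mul hc0.le, hev]
        exact ENNReal.ofReal_le_ofReal (h4 t ht)
    _ = ENNReal.ofReal c ^ (-p) * ∫⁻ t in closedBall (0 : ℂ) ρ, ‖Q.eval t‖ₑ ^ (-p) :=
        lintegral_const_mul' _ _ hc'
    _ ≤ _ := mul_le_mul_right h5 _

variable {E : Type*} [NormedAddCommGroup E] [NormedSpace ℂ E]

/-- the bounds on the lines near `w0` -/
theorem line_bounds {f : E → ℂ} {w0 e : E} (hf : AnalyticAt ℂ f w0) {m : ℕ}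
    (hm : analyticOrderAt (fun t : ℂ => f (w0 + t • e)) 0 ≤ m) {U : Set E} (hU : U ∈ 𝓝 w0) :
    ∃ ρ R Mx c : ℝ, 0 < ρ ∧ ρ < R ∧ 2 * ρ ≤ 1 ∧ 0 < c ∧
      Mx * (1 / (R - ρ)) ^ (m + 1) * (2 * ρ) ^ (m + 1) < c ∧ ∀ᶠ w in 𝓝 w0,
        (∀ t ∈ ball (0 : ℂ) (2 * R), w + t • e ∈ U) ∧
        DifferentiableOn ℂ (fun t : ℂ => f (w + t • e)) (ball 0 (2 * R)) ∧
        (∀ t ∈ closedBall (0 : ℂ) R, ‖f (w + t • e)‖ ≤ Mx) ∧
        ∀ t ∈ sphere (0 : ℂ) ρ, c ≤ ‖f (w + t • e)‖ := by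
  have hL : Continuous fun q : E × ℂ => q.1 + q.2 • e := by fun_prop
  have hl : AnalyticAt ℂ (fun t : ℂ => f (w0 + t • e)) 0 := by
    refine AnalyticAt.comp (f := fun t : ℂ => w0 + t • e) (by simpa using hf) (by fun_prop)
  obtain ⟨μ, hμ⟩ := ENat.ne_top_iff_exists.1 (ne_top_of_le_ne_top (ENat.natCast_ne_top m) hm)
  have hμm : μ ≤ m := by
    rw [← hμ] at hm
    exact_mod_cast hm
  obtain ⟨g, hg, hg0, hfg⟩ := (hl.analyticOrderAt_eq_natCast).1 hμ.symm
  have hgp : 0 < ‖g 0‖ / 2 := half_pos (norm_pos_iff.2 hg0)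
  have h1 : ∀ᶠ t in 𝓝 (0 : ℂ), ‖g 0‖ / 2 * ‖t‖ ^ μ ≤ ‖f (w0 + t • e)‖ := by
    filter_upwards [hfg, hg.continuousAt.norm.eventually_const_lt (half_lt_self
      (norm_pos_iff.2 hg0))] with t h2 h3
    rw [h2, sub_zero, norm_smul, norm_pow, mul_comm]
    exact mul_le_mul_of_nonneg_left h3.le (by positivity)
  have h2 : ∀ᶠ w in 𝓝 w0, w ∈ U ∧ AnalyticAt ℂ f w ∧ ‖f w‖ ≤ ‖f w0‖ + 1 := by
    filter_upwards [hU, hf.eventually_analyticAt,
      hf.continuousAt.norm.eventually_lt_const (lt_add_one _)] with w a b c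
    exact ⟨a, b, c.le⟩
  have h3 : ∀ᶠ q : E × ℂ in 𝓝 (w0, 0), q.1 + q.2 • e ∈ U ∧ AnalyticAt ℂ f (q.1 + q.2 • e) ∧
      ‖f (q.1 + q.2 • e)‖ ≤ ‖f w0‖ + 1 := by
    refine hL.continuousAt.eventually (p := fun w => w ∈ U ∧ AnalyticAt ℂ f w ∧
      ‖f w‖ ≤ ‖f w0‖ + 1) ?_
    simpa using h2
  rw [nhds_prod_eq, eventually_prod_iff] at h3
  obtain ⟨pa, ha, pb, hb, h3⟩ := h3
  obtain ⟨r, hr, h4⟩ := Metric.eventually_nhds_iff_ball.1 (h1.and hb)
  set R := r / 2 with hR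
  have hR0 : 0 < R := half_pos hr
  have hRr : 2 * R = r := by ring
  set Mx := ‖f w0‖ + 1
  -- choice of `ρ`
  have h5 : ∀ᶠ ρ in 𝓝[>] (0 : ℝ),
      Mx * (1 / (R - ρ)) ^ (m + 1) * 2 ^ (m + 1) * ρ ^ (m + 1 - μ) < ‖g 0‖ / 2 / 2 := by
    refine eventually_nhdsWithin_of_eventually_nhds ?_
    have h6 : ContinuousAt (fun ρ : ℝ =>
        Mx * (1 / (R - ρ)) ^ (m + 1) * 2 ^ (m + 1) * ρ ^ (m + 1 - μ)) 0 := by
      have : ContinuousAt (fun ρ : ℝ => 1 / (R - ρ)) 0 :=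
        continuousAt_const.div (by fun_prop) (by simpa using hR0.ne')
      fun_prop
    refine h6.eventually_lt_const ?_
    simp only [zero_pow (show m + 1 - μ ≠ 0 by omega), mul_zero]
    exact half_pos hgp
  obtain ⟨ρ, h6, h7, h8, hρ⟩ := (h5.and ((eventually_nhdsWithin_of_eventually_nhds
    (eventually_lt_nhds hR0)).and ((eventually_nhdsWithin_of_eventually_nhds
    (eventually_lt_nhds (show (0 : ℝ) < 1 / 2 by norm_num))).and self_mem_nhdsWithin))).exists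
  have hρ0 : 0 < ρ := hρ
  have hρμ : 0 < ρ ^ μ := by positivity
  refine ⟨ρ, R, Mx, ‖g 0‖ / 2 / 2 * ρ ^ μ, hρ0, h7, by linarith, by positivity, ?_, ?_⟩
  · have h9 : ρ ^ (m + 1) = ρ ^ (m + 1 - μ) * ρ ^ μ := by
      rw [← pow_add]
      congr 1
      omega
    rw [mul_pow, h9]
    nlinarith [mul_lt_mul_of_pos_right h6 hρμ]
  · have hs : sphere (0 : ℂ) ρ ⊆ ball 0 r := sphere_subset_ball (by linarith)
    have h9 : ∀ᶠ w in 𝓝 w0, ∀ t ∈ sphere (0 : ℂ) ρ,
        ‖g 0‖ / 2 / 2 * ρ ^ μ < ‖f (w + t • e)‖ := by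
      refine (isCompact_sphere (0 : ℂ) ρ).eventually_forall_of_forall_eventually fun t ht => ?_
      have h10 := h4 t (hs ht)
      have h11 : ContinuousAt (fun q : E × ℂ => ‖f (q.1 + q.2 • e)‖) (w0, t) :=
        (ContinuousAt.comp (f := fun q : E × ℂ => q.1 + q.2 • e)
          (h3 ha.self_of_nhds h10.2).2.1.continuousAt hL.continuousAt).norm
      refine h11.eventually_const_lt (lt_of_lt_of_le ?_ h10.1)
      rw [mem_sphere_zero_iff_norm.1 ht]
      exact mul_lt_mul_of_pos_right (half_lt_self hgp) hρμ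
    filter_upwards [ha, h9] with w hw h10
    rw [hRr]
    refine ⟨fun t ht => (h3 hw (h4 t ht).2).1, fun t ht => ?_, fun t ht => ?_,
      fun t ht => (h10 t ht).le⟩
    · refine DifferentiableAt.differentiableWithinAt ?_
      exact DifferentiableAt.comp (f := fun t : ℂ => w + t • e) t
        (h3 hw (h4 t ht).2).2.1.differentiableAt (by fun_prop)
    · exact (h3 hw (h4 t (closedBall_subset_ball (by linarith) ht)).2).2.2

/-- sharp local integrability -/
theorem sko [MeasurableSpace E] [BorelSpace E] [SecondCountableTopology E] [ProperSpace E]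
    (ν : Measure E) [ν.IsAddHaarMeasure] {f : E → ℂ} {w0 e : E} (hf : AnalyticAt ℂ f w0) {m : ℕ}
    (hm : analyticOrderAt (fun t : ℂ => f (w0 + t • e)) 0 ≤ m) {p : ℝ} (hp : 0 ≤ p)
    (hpm : p * m < 2) : ∃ V ∈ 𝓝 w0, ∫⁻ w in V, ‖f w‖ₑ ^ (-p) ∂ν < ⊤ := by
  classical
  obtain ⟨U, hUf, hUo, hU0⟩ := _root_.eventually_nhds_iff.1 hf.eventually_analyticAt
  have hcont : ContinuousOn f U := fun w hw => (hUf w hw).continuousAt.continuousWithinAt
  have hf' : Measurable (U.piecewise f 0) :=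
    hcont.measurable_piecewise continuousOn_const hUo.measurableSet
  set G : E → ℝ≥0∞ := fun w => ‖U.piecewise f 0 w‖ₑ ^ (-p) with hG
  have hGm : Measurable G := hf'.enorm.pow_const _
  have hGU : ∀ w ∈ U, G w = ‖f w‖ₑ ^ (-p) := fun w hw => by
    simp only [hG, piecewise_eq_of_mem _ _ _ hw]
  obtain ⟨ρ, R, Mx, c, hρ, hR, hρ1, hc0, hc, H⟩ := line_bounds hf hm (hUo.mem_nhds hU0)
  obtain ⟨C, hC, HC⟩ := zl_int hρ hR hρ1 m hp hpm hc hc0
  obtain ⟨δ, hδ, H⟩ := Metric.eventually_nhds_iff_ball.1 (H.and (hUo.mem_nhds hU0))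
  have h1 : ∀ w ∈ ball w0 δ, ∫⁻ t in closedBall (0 : ℂ) ρ, G (w + t • e) ≤ C := by
    intro w hw
    obtain ⟨⟨a1, a2, a3, a4⟩, -⟩ := H w hw
    refine le_of_eq_of_le (setLIntegral_congr_fun measurableSet_closedBall fun t ht => ?_)
      (HC _ a2 a3 a4)
    exact hGU _ (a1 t (closedBall_subset_ball (by linarith) ht))
  -- small `t`
  have h2 : ∀ᶠ t in 𝓝 (0 : ℂ), ‖t • e‖ < δ / 2 ∧ t ∈ closedBall (0 : ℂ) ρ := by
    refine Eventually.and ?_ (closedBall_mem_nhds _ hρ)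
    have : ContinuousAt (fun t : ℂ => ‖t • e‖) 0 := by fun_prop
    exact this.eventually_lt_const (by simpa using hδ)
  obtain ⟨η, hη, h2⟩ := Metric.eventually_nhds_iff_ball.1 h2
  have h3 : ∀ t ∈ ball (0 : ℂ) η, ∫⁻ w in ball w0 (δ / 2), G w ∂ν ≤
      ∫⁻ w in ball w0 δ, G (w + t • e) ∂ν := by
    intro t ht
    rw [← lintegral_indicator measurableSet_ball, ← lintegral_indicator measurableSet_ball,
      ← lintegral_add_right_eq_self _ (t • e)]
    refine lintegral_mono fun w => ?_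
    by_cases hw : w + t • e ∈ ball w0 (δ / 2)
    · have h4 : w ∈ ball w0 δ := by
        rw [mem_ball, dist_eq_norm] at hw ⊢
        have h5 := norm_sub_le (w + t • e - w0) (t • e)
        rw [show w + t • e - w0 - t • e = w - w0 by abel] at h5
        linarith [(h2 t ht).1]
      simp only [indicator_of_mem hw, indicator_of_mem h4, le_refl]
    · simp only [indicator_of_notMem hw, zero_le]
  have h4 : (∫⁻ w in ball w0 (δ / 2), G w ∂ν) * volume (ball (0 : ℂ) η) ≤ C * ν (ball w0 δ) := by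
    calc (∫⁻ w in ball w0 (δ / 2), G w ∂ν) * volume (ball (0 : ℂ) η)
        = ∫⁻ _ in ball (0 : ℂ) η, ∫⁻ w in ball w0 (δ / 2), G w ∂ν := by
          rw [setLIntegral_const]
      _ ≤ ∫⁻ t in ball (0 : ℂ) η, ∫⁻ w in ball w0 δ, G (w + t • e) ∂ν :=
          setLIntegral_mono' measurableSet_ball h3
      _ ≤ ∫⁻ t in closedBall (0 : ℂ) ρ, ∫⁻ w in ball w0 δ, G (w + t • e) ∂ν :=
          lintegral_mono_set fun t ht => (h2 t ht).2
      _ = ∫⁻ w in ball w0 δ, (∫⁻ t in closedBall (0 : ℂ) ρ, G (w + t • e)) ∂ν := by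
          refine lintegral_lintegral_swap ?_
          exact (hGm.comp (by fun_prop : Measurable fun q : ℂ × E => q.2 + q.1 • e)).aemeasurable
      _ ≤ ∫⁻ _ in ball w0 δ, C ∂ν := setLIntegral_mono' measurableSet_ball h1
      _ = C * ν (ball w0 δ) := setLIntegral_const _ _
  refine ⟨ball w0 (δ / 2), ball_mem_nhds _ (half_pos hδ), ?_⟩
  have h5 : ∫⁻ w in ball w0 (δ / 2), ‖f w‖ₑ ^ (-p) ∂ν = ∫⁻ w in ball w0 (δ / 2), G w ∂ν :=
    setLIntegral_congr_fun measurableSet_ball fun w hw =>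
      (hGU w (H w (ball_subset_ball (by linarith) hw)).2).symm
  rw [h5]
  exact ENNReal.lt_top_of_mul_ne_top_left
    (h4.trans_lt (ENNReal.mul_lt_top hC measure_ball_lt_top)).ne (measure_ball_pos _ _ hη).ne'

end Crest.Agent.X262.Vol78
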