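import Crest.Agent.X262.Vol78.Fib
import Crest.Agent.X262.Vol78.Sko
import Crest.Agent.X262.Vol78.Conn

/-!
# Row 262, package Vol78 (helper78), file `Ord`: the order along a fibre is bounded by the degree

* `ord1`  : a relation `∑ α i j U^i t^j = 0`, `j ≤ D`, bounds the order of `U` by `D`;
* `PC.ord`: the same for a relation with coefficients constant along the fibres;
* `li_of_rel` : local integrability of `|u|^(-p)` for `p D < 2`.
-/

set_option autoImplicit false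
set_option linter.unusedSectionVars false

open Set Filter Topology Module Metric MeasureTheory Asymptotics
open scoped KaehlerDifferential ENNReal

namespace Crest.Agent.X262.Vol78

open Crest.Agent.R275.Geo Crest.Agent.R275.Core144
open Crest.Agent.R273.ExpI3_772 (lam)
open Crest.Agent.X277 Crest.Agent.X277.Lef Crest.Agent.X277.AN Crest.Agent.X277.AN.G1
open Crest.Agent.X277.AN.G1.AnP Crest.Agent.X277.BD Crest.Agent.X277.BD.Br

noncomputable section

theorem coef_zero {D : ℕ} {c : Fin (D + 1) → ℂ}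
    (h : (fun t : ℂ => ∑ j, c j * t ^ (j : ℕ)) =O[𝓝[≠] 0] fun t : ℂ => t ^ (D + 1)) : c = 0 := by
  have key : ∀ k : ℕ, ∀ j : Fin (D + 1), (j : ℕ) = k → c j = 0 := by
    intro k
    induction k using Nat.strong_induction_on with
    | _ k ih =>
      rintro j rfl
      have h1 : (fun t : ℂ => ∑ l, c l * t ^ ((l : ℕ) - j)) =O[𝓝[≠] 0]
          fun t : ℂ => t ^ (D + 1 - j) := by
        refine ((h.mul (isBigO_refl (fun t : ℂ => (t ^ (j : ℕ))⁻¹) _)).congr' ?_ ?_)
        · filter_upwards [self_mem_nhdsWithin] with t ht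
          have ht' : t ≠ 0 := ht
          rw [Finset.sum_mul]
          refine Finset.sum_congr rfl fun l _ => ?_
          rcases lt_or_ge (l : ℕ) j with h2 | h2
          · simp [ih l h2 l rfl]
          · rw [pow_sub₀ _ ht' h2, mul_assoc]
        · filter_upwards [self_mem_nhdsWithin] with t ht
          rw [pow_sub₀ _ (show t ≠ 0 from ht) j.2.le]
      have h2 : Tendsto (fun t : ℂ => t ^ (D + 1 - j)) (𝓝[≠] 0) (𝓝 0) := by
        have : Continuous fun t : ℂ => t ^ (D + 1 - j) := by fun_prop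
        have h3 := (this.tendsto 0).mono_left (nhdsWithin_le_nhds (s := {0}ᶜ))
        rwa [zero_pow (by have := j.2; omega)] at h3
      have h3 : Tendsto (fun t : ℂ => ∑ l, c l * t ^ ((l : ℕ) - j)) (𝓝[≠] 0) (𝓝 (c j)) := by
        have : Continuous fun t : ℂ => ∑ l, c l * t ^ ((l : ℕ) - j) := by fun_prop
        have h4 := (this.tendsto 0).mono_left (nhdsWithin_le_nhds (s := {0}ᶜ))
        rw [Finset.sum_eq_single j (fun l _ hl => ?_) (by simp)] at h4
        · simpa using h4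
        · rcases lt_or_gt_of_ne (Fin.val_ne_of_ne hl) with h5 | h5
          · simp [ih l h5 l rfl]
          · rw [zero_pow (by omega), mul_zero]
      exact tendsto_nhds_unique h3 (h1.trans_tendsto h2)
  exact funext fun j => key _ j rfl

/-- the one-variable lemma -/
theorem ord1 {U : ℂ → ℂ} (hU : AnalyticAt ℂ U 0) (h0 : ¬ ∀ᶠ t in 𝓝 0, U t = 0) {N D : ℕ}
    {α : Fin N × Fin (D + 1) → ℂ} (hα : α ≠ 0)
    (h : ∀ᶠ t in 𝓝 (0 : ℂ), ∑ ij, α ij * U t ^ (ij.1 : ℕ) * t ^ (ij.2 : ℕ) = 0) :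
    analyticOrderAt U 0 ≤ D := by
  by_contra h1
  have h2 : ((D + 1 : ℕ) : ℕ∞) ≤ analyticOrderAt U 0 := by
    push_cast
    exact Order.add_one_le_of_lt (not_le.1 h1)
  obtain ⟨g, hg, h3⟩ := (natCast_le_analyticOrderAt hU).1 h2
  have h4 : U =O[𝓝[≠] 0] fun t : ℂ => t ^ (D + 1) := by
    refine IsBigO.mono ?_ nhdsWithin_le_nhds
    have h5 := (isBigO_refl (fun t : ℂ => t ^ (D + 1)) (𝓝 0)).mul
      (hg.continuousAt.tendsto.isBigO_one ℂ)
    exact h5.congr' (h3.mono fun t ht => by simp [ht]) (Eventually.of_forall fun t => mul_one _)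
  have h5 := hU.eventually_eq_zero_or_eventually_ne_zero.resolve_left h0
  have key : ∀ k : ℕ, ∀ i : Fin N, (i : ℕ) = k → ∀ j, α (i, j) = 0 := by
    intro k
    induction k using Nat.strong_induction_on with
    | _ k ih =>
      rintro i rfl
      have hc : ContinuousAt (fun t => ∑ l : Fin N, ∑ j : Fin (D + 1), (if (i : ℕ) < l then
          α (l, j) * U t ^ ((l : ℕ) - i - 1) * t ^ (j : ℕ) else 0)) 0 := by
        have := hU.continuousAt
        refine tendsto_finsetSum _ fun l _ => tendsto_finsetSum _ fun j _ => ?_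
        split_ifs
        · exact ((continuousAt_const.mul (this.pow _)).mul (continuousAt_id.pow _)).tendsto
        · exact tendsto_const_nhds
      have h6 := (h4.mul ((hc.tendsto.isBigO_one ℂ).mono nhdsWithin_le_nhds)).neg_left
      refine congrFun (coef_zero (c := fun j => α (i, j)) (h6.congr' ?_
        (Eventually.of_forall fun t => mul_one _)))
      filter_upwards [h5, nhdsWithin_le_nhds h] with t ht h7
      refine mul_left_cancel₀ (pow_ne_zero i ht) ?_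
      have h8 : ∑ ij : Fin N × Fin (D + 1), α ij * U t ^ (ij.1 : ℕ) * t ^ (ij.2 : ℕ) = 0 := h7
      rw [Fintype.sum_prod_type, ← Finset.add_sum_erase _ _ (Finset.mem_univ i)] at h8
      have e1 : U t ^ (i : ℕ) * ∑ j : Fin (D + 1), α (i, j) * t ^ (j : ℕ) =
          ∑ j : Fin (D + 1), α (i, j) * U t ^ (i : ℕ) * t ^ (j : ℕ) := by
        rw [Finset.mul_sum]
        exact Finset.sum_congr rfl fun j _ => by ring
      have e2 : U t ^ (i : ℕ) * (U t * ∑ l : Fin N, ∑ j : Fin (D + 1), (if (i : ℕ) < l then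
          α (l, j) * U t ^ ((l : ℕ) - i - 1) * t ^ (j : ℕ) else 0)) =
          ∑ l ∈ Finset.univ.erase i, ∑ j : Fin (D + 1),
            α (l, j) * U t ^ (l : ℕ) * t ^ (j : ℕ) := by
        rw [← Finset.add_sum_erase _ _ (Finset.mem_univ i)]
        simp only [lt_irrefl, if_false, Finset.sum_const_zero, zero_add, Finset.mul_sum]
        refine Finset.sum_congr rfl fun l hl => Finset.sum_congr rfl fun j _ => ?_
        rcases lt_or_gt_of_ne (Fin.val_ne_of_ne (Finset.ne_of_mem_erase hl)) with h9 | h9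
        · simp [ih l h9 l rfl j]
        · obtain ⟨s, hs⟩ := Nat.exists_eq_add_of_lt h9
          rw [if_pos h9, show (l : ℕ) - i - 1 = s by omega, hs]
          ring
      rw [mul_neg, e1, e2, neg_eq_iff_add_eq_zero, add_comm]
      exact h8
  exact hα (funext fun ij => key _ ij.1 rfl ij.2)

variable {F : Type} [Field F] [Algebra ℂ F] {P : PModel ℂ F} {m : ℕ} {X : AnP P (m + 1)}
  {y : Fin m → F} {q : Pts P}

/-- the order along the fibre -/
theorem PC.ord (C : PC X y q) (b : Basis (Fin (m + 1)) F Ω[F⁄ℂ]) {u : F}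
    (hu : ∀ w ∈ pd (m + 1) C.r, u ∈ (lp (C.c.inv w)).O) (h0 : ¬ Van y q u) {N D : ℕ}
    {a : Fin N × Fin (D + 1) → F} (ha : a ≠ 0)
    (ha1 : ∀ ij, ∀ w ∈ pd (m + 1) C.r, a ij ∈ (lp (C.c.inv w)).O)
    (ha2 : ∀ ij, G1.pd b (cs C.z y) 0 (a ij) = 0)
    (h : ∑ ij, a ij * u ^ (ij.1 : ℕ) * (C.z - algebraMap ℂ F (ev C.z q)) ^ (ij.2 : ℕ) = 0) :
    analyticOrderAt (fun t : ℂ => ev u (C.c.inv (0 + t • C.e))) 0 ≤ D := by
  obtain ⟨ij0, h1⟩ := Function.ne_iff.1 ha
  set A : Cn (m + 1) → Fin N × Fin (D + 1) → ℂ := fun w ij => ev (a ij) (C.c.inv w) with hA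
  have h2 : ∃ᶠ w in 𝓝 (0 : Cn (m + 1)), A w ≠ 0 := by
    have h3 := X.frequently_ne' q h1
    by_contra h4
    refine h3 (C.nhds_q.2 ((not_frequently.1 h4).mono fun w hw => ?_))
    exact not_not.2 (congrFun (not_not.1 hw) ij0)
  have hne : (𝓝 (0 : Cn (m + 1)) ⊓ 𝓟 {w | A w ≠ 0}).NeBot := frequently_iff_neBot.1 h2
  set 𝒰 := Ultrafilter.of (𝓝 (0 : Cn (m + 1)) ⊓ 𝓟 {w | A w ≠ 0}) with h𝒰
  have u1 : (𝒰 : Filter (Cn (m + 1))) ≤ 𝓝 0 := (Ultrafilter.of_le _).trans inf_le_left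
  have u2 : ∀ᶠ w in (𝒰 : Filter (Cn (m + 1))), A w ≠ 0 :=
    le_principal_iff.1 ((Ultrafilter.of_le _).trans inf_le_right)
  obtain ⟨α, hα, h3⟩ := (isCompact_sphere (0 : Fin N × Fin (D + 1) → ℂ) 1).ultrafilter_le_nhds
    (𝒰.map fun w => ((‖A w‖ : ℂ))⁻¹ • A w) (by
      rw [le_principal_iff, Ultrafilter.coe_map, mem_map]
      filter_upwards [u2] with w hw
      rw [mem_preimage, mem_sphere_zero_iff_norm, norm_smul, norm_inv, Complex.norm_real,
        norm_norm, inv_mul_cancel₀ (norm_ne_zero_iff.2 hw)])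
  have h4 : Tendsto (fun w => ((‖A w‖ : ℂ))⁻¹ • A w) 𝒰 (𝓝 α) := h3
  refine ord1 (α := α) (C.an_ln (by simpa using C.zero_mem) (hu _ (by simpa using C.zero_mem)))
    (fun h5 => h0 (C.van_q.2 h5)) (fun h5 => by simp [h5] at hα) ?_
  filter_upwards [(C.tendsto_ln 0).eventually (pd_mem_nhds C.r_pos)] with t ht
  have l1 : Tendsto (fun w : Cn (m + 1) => w + t • C.e) (𝓝 0) (𝓝 (0 + t • C.e)) :=
    (by fun_prop : Continuous fun w : Cn (m + 1) => w + t • C.e).tendsto 0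
  have l2 : Tendsto (fun w => ev u (C.c.inv (w + t • C.e))) 𝒰
      (𝓝 (ev u (C.c.inv (0 + t • C.e)))) :=
    ((C.an ht (hu _ ht)).continuousAt.tendsto.comp l1).mono_left u1
  have l3 : Tendsto (fun w : Cn (m + 1) => w (C.σ 0) + t) 𝒰 (𝓝 t) := by
    have : Continuous fun w : Cn (m + 1) => w (C.σ 0) + t := by fun_prop
    simpa using (this.tendsto 0).mono_left u1
  refine tendsto_nhds_unique (tendsto_finsetSum _ fun ij _ =>
    ((((continuous_apply ij).tendsto α).comp h4).mul (l2.pow _)).mul (l3.pow _))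
    (tendsto_const_nhds.congr' ?_)
  filter_upwards [u1 (pd_mem_nhds C.r_pos), u1 (l1.eventually ((isOpen_pd C.r).mem_nhds ht))]
    with w hw hwt
  have m1 : C.z - algebraMap ℂ F (ev C.z q) ∈ (lp (C.c.inv (w + t • C.e))).O :=
    sub_mem ((C.crd _ hwt).mem 0) (algebraMap_mem _ _)
  have m2 : ev (C.z - algebraMap ℂ F (ev C.z q)) (C.c.inv (w + t • C.e)) = w (C.σ 0) + t := by
    have e1 := C.ev_z hwt
    unfold ev at e1 ⊢
    rw [LP.v_sub (f := C.z) ((C.crd _ hwt).mem 0) (algebraMap_mem _ _), LP.v_alg, e1, C.ln_zero]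
    ring
  have h5 := congrArg (lp (C.c.inv (w + t • C.e))).v h
  rw [LP.v_zero, LP.v_sum _ fun ij _ =>
    mul_mem (mul_mem (ha1 ij _ hwt) (pow_mem (hu _ hwt) _)) (pow_mem m1 _)] at h5
  rw [← mul_zero ((‖A w‖ : ℂ))⁻¹, ← h5, Finset.mul_sum]
  refine Finset.sum_congr rfl fun ij _ => ?_
  have m3 := C.const_ln b (ha1 ij) (ha2 ij) hw hwt
  unfold ev at m2 m3
  rw [LP.v_mul _ (mul_mem (ha1 ij _ hwt) (pow_mem (hu _ hwt) _)) (pow_mem m1 _),
    LP.v_mul _ (ha1 ij _ hwt) (pow_mem (hu _ hwt) _), LP.v_pow (hu _ hwt), LP.v_pow m1, m2, m3]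
  simp only [Function.comp, Pi.smul_apply, smul_eq_mul, hA]
  ring

theorem PC.li (C : PC X y q) {u : F} (hu : u ∈ (lp q).O) {D : ℕ}
    (h : analyticOrderAt (fun t : ℂ => ev u (C.c.inv (0 + t • C.e))) 0 ≤ D) {p : ℝ} (hp : 0 ≤ p)
    (hD : p * D < 2) : LI X q u p := by
  intro h0
  obtain ⟨V, hV, h1⟩ := sko (lam (m + 1)) (C.an C.zero_mem (by rwa [C.c.inv_zero])) h hp hD
  obtain ⟨r0, c0, C0, hr0, -, -, h2⟩ := AN.Crd.cmp h0 C.c
  obtain ⟨r, hr, h3⟩ := exists_pd_subset hV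
  refine ⟨C.c.W (min r r0), C.c.W_mem_nhds (lt_min hr hr0), ?_⟩
  refine ((h2 _ (min_le_right _ _) _ ((measurable_ev u).enorm.pow_const _)).2).trans_lt ?_
  exact ENNReal.mul_lt_top ENNReal.coe_lt_top
    ((lintegral_mono_set ((pd_mono (min_le_left _ _)).trans h3)).trans_lt h1)

/-- local integrability from a relation of small degree -/
theorem li_of_rel (X : AnP P (m + 1)) (b : Basis (Fin (m + 1)) F Ω[F⁄ℂ]) {z u : F}
    (hz : (lp q).Crd (cs z y)) (hu : u ∈ (lp q).O) (h0 : ¬ Van y q u) {N D : ℕ}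
    {a : Fin N × Fin (D + 1) → F} (ha : a ≠ 0) (ha1 : ∀ ij, a ij ∈ (lp q).O)
    (ha2 : ∀ ij, G1.pd b (cs z y) 0 (a ij) = 0)
    (h : ∑ ij, a ij * u ^ (ij.1 : ℕ) * (z - algebraMap ℂ F (ev z q)) ^ (ij.2 : ℕ) = 0) {p : ℝ}
    (hp : 0 ≤ p) (hD : p * D < 2) : LI X q u p := by
  obtain ⟨C, rfl, hC⟩ := exists_PC X b hz
    ((eventually_mem hu).and (eventually_all.2 fun ij => eventually_mem (ha1 ij)))
  exact C.li hu (C.ord b (fun w hw => (hC w hw).1) h0 ha (fun ij w hw => (hC w hw).2 ij) ha2 h)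
    hp hD

/-- a unit has all negative powers integrable -/
theorem li_of_ne {n : ℕ} (X : AnP P n) {u : F} (hu : ev u q ≠ 0) {p : ℝ} (hp : 0 ≤ p) :
    LI X q u p := by
  intro h0
  have := X.connected
  have := (tame_vm' h0).fin
  have h1 : 0 < ‖ev u q‖ := norm_pos_iff.2 hu
  obtain ⟨W, hW, hWo, hWq⟩ := mem_nhds_iff.1
    ((continuousAt_ev (LP.mem_of_ne hu)).norm.eventually_const_lt (half_lt_self h1))
  refine ⟨W, hWo.mem_nhds hWq, lt_of_le_of_lt (setLIntegral_mono' hWo.measurableSet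
    (g := fun _ => ENNReal.ofReal (‖ev u q‖ / 2) ^ (-p)) fun x hx => ?_) ?_⟩
  · rw [ENNReal.rpow_neg, ENNReal.rpow_neg, ← ofReal_norm]
    exact ENNReal.inv_le_inv.2 (ENNReal.rpow_le_rpow (ENNReal.ofReal_le_ofReal (hW hx).le) hp)
  · rw [setLIntegral_const]
    refine ENNReal.mul_lt_top ?_ (measure_lt_top _ _)
    rw [ENNReal.rpow_neg]
    exact ENNReal.inv_lt_top.2 (ENNReal.rpow_pos (ENNReal.ofReal_pos.2 (half_pos h1))
      ENNReal.ofReal_ne_top)

end

end Crest.Agent.X262.Vol78
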